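import Vale.Agent.P232.Boxes

/-!
# P232: periodic kernels and reflections of a coordinate
-/

noncomputable section

open MeasureTheory Filter Topology Set Function

namespace Vale.Agent.P232.Symm

variable {n : ℕ}

/-- The distance to the integers. -/
def circ (t : ℝ) : ℝ := |t - round t|

theorem circ_nonneg (t : ℝ) : 0 ≤ circ t := abs_nonneg _

theorem circ_le (t : ℝ) (k : ℤ) : circ t ≤ |t - k| := round_le t k

theorem circ_le_abs (t : ℝ) : circ t ≤ |t| := by simpa using circ_le t 0

theorem circ_add_int (t : ℝ) (k : ℤ) : circ (t + k) = circ t := by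
  simp [circ, round_add_intCast]

theorem circ_neg (t : ℝ) : circ (-t) = circ t := by
  have h : ∀ s, circ (-s) ≤ circ s := fun s => by
    refine (circ_le (-s) (-round s)).trans_eq ?_
    rw [circ, ← abs_neg]; push_cast; ring_nf
  exact le_antisymm (h t) (by simpa using h (-t))

theorem circ_sub_le (s t : ℝ) : circ s - circ t ≤ |s - t| := by
  have := circ_le s (round t)
  have := abs_add_le (s - t) (t - round t)
  simp only [sub_add_sub_cancel] at this
  have ht : circ t = |t - round t| := rfl
  linarith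

theorem continuous_circ : Continuous circ :=
  (LipschitzWith.of_dist_le_mul (K := 1) fun s t => by
    rw [Real.dist_eq, Real.dist_eq, NNReal.coe_one, one_mul]
    exact abs_sub_le_iff.2 ⟨circ_sub_le s t, by rw [abs_sub_comm]; exact circ_sub_le t s⟩).continuous

theorem circ_eq_abs {t : ℝ} (ht : |t| ≤ 1 / 2) : circ t = |t| := by
  refine le_antisymm (circ_le_abs t) ?_
  rcases eq_or_ne (round t) 0 with h | h
  · simp [circ, h]
  · have h1 : (1 : ℝ) ≤ |(round t : ℝ)| := by
      rw [← Int.cast_abs]; exact_mod_cast Int.one_le_abs h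
    have := abs_sub_abs_le_abs_sub (round t : ℝ) t
    rw [abs_sub_comm] at this
    show |t| ≤ |t - round t|
    linarith

/-- The reflection of the coordinate `i` at `a`. -/
def refl (i : Fin n) (a : ℝ) (x : Fin n → ℝ) : Fin n → ℝ := update x i (2 * a - x i)

/-- The half period to the right of `a`. -/
def InHalf (i : Fin n) (a : ℝ) (x : Fin n → ℝ) : Prop := Int.fract (x i - a) ≤ 1 / 2

@[simp] theorem refl_refl (i : Fin n) (a : ℝ) (x : Fin n → ℝ) : refl i a (refl i a x) = x := by
  funext k; rcases eq_or_ne k i with rfl | hk <;> simp [refl, *]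

theorem continuous_refl (i : Fin n) (a : ℝ) : Continuous (refl i a) :=
  continuous_id.update i (continuous_const.sub (continuous_apply i))

theorem refl_add_single (i : Fin n) (a : ℝ) (x : Fin n → ℝ) (j : Fin n) (c : ℝ) :
    refl i a (x + Pi.single j c) = refl i a x + Pi.single j (if j = i then -c else c) := by
  funext k
  rcases eq_or_ne k i with rfl | hk <;> rcases eq_or_ne j k with rfl | hj <;>
    simp_all [refl, Pi.single_apply, eq_comm]
  ring

theorem refl_apply_self (i : Fin n) (a : ℝ) (x : Fin n → ℝ) : refl i a x i = 2 * a - x i := by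
  simp [refl]

theorem refl_apply_of_ne {i k : Fin n} (h : k ≠ i) (a : ℝ) (x : Fin n → ℝ) :
    refl i a x k = x k := by
  simp [refl, h]

theorem per_comp_refl {f : (Fin n → ℝ) → ℝ} (hp : Per f) (i : Fin n) (a : ℝ) :
    Per fun x => f (refl i a x) := by
  intro x j
  simp only [refl_add_single]
  split_ifs with h
  · rw [← hp (refl i a x + Pi.single j (-1)) j, add_assoc, ← Pi.single_add]; simp
  · exact hp _ _

theorem integral_box_refl {f : (Fin (n + 1) → ℝ) → ℝ} (hf : Continuous f) (hp : Per f)
    (i : Fin (n + 1)) (a : ℝ) :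
    ∫ x in box (n + 1), f (refl i a x) = ∫ x in box (n + 1), f x := by
  rw [integral_box_succ (f := fun x => f (refl i a x)) (hf.comp (continuous_refl i a)) i,
    integral_box_succ hf i]
  have h : ∀ z, ∫ y in box n, f (refl i a (i.insertNth z y)) =
      ∫ y in box n, f (i.insertNth (2 * a - z) y) := fun z => by
    simp [refl, Fin.update_insertNth]
  simp_rw [h]
  set G := fun z => ∫ y in box n, f (i.insertNth z y) with hG
  have hper : Function.Periodic G 1 := fun z => by
    refine setIntegral_congr_fun measurableSet_box fun y _ => ?_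
    exact hp.insertNth_add_one i z y
  rw [intervalIntegral.integral_comp_sub_left G (2 * a)]
  simpa using hper.intervalIntegral_add_eq (2 * a - 1) 0

theorem exists_fold (a t : ℝ) :
    ∃ (e : ℝ) (k : ℤ), e ∈ Icc (0 : ℝ) (1 / 2) ∧
      ((Int.fract (t - a) ≤ 1 / 2 ∧ t = a + e + k) ∨
        (1 / 2 < Int.fract (t - a) ∧ t = a - e + k)) := by
  have h0 := Int.fract_nonneg (t - a)
  have h1 := Int.fract_lt_one (t - a)
  have h := Int.fract_add_floor (t - a)
  by_cases hs : Int.fract (t - a) ≤ 1 / 2
  · exact ⟨Int.fract (t - a), ⌊t - a⌋, ⟨h0, hs⟩, Or.inl ⟨hs, by linarith⟩⟩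
  · rw [not_le] at hs
    exact ⟨1 - Int.fract (t - a), ⌊t - a⌋ + 1, ⟨by linarith, by linarith⟩,
      Or.inr ⟨hs, by push_cast; linarith⟩⟩

theorem circ_sub_le_circ_add {s t : ℝ} (hs : s ∈ Icc (0 : ℝ) (1 / 2))
    (ht : t ∈ Icc (0 : ℝ) (1 / 2)) : circ (s - t) ≤ circ (s + t) := by
  refine (circ_le_abs _).trans ?_
  obtain ⟨hs0, hs1⟩ := hs
  obtain ⟨ht0, ht1⟩ := ht
  rcases le_or_gt (round (s + t)) 0 with h | h
  · have h' : (round (s + t) : ℝ) ≤ 0 := by exact_mod_cast h
    exact (abs_sub_le_iff.2 ⟨by linarith, by linarith⟩).trans (le_abs_self _)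
  · have h' : (1 : ℝ) ≤ round (s + t) := by exact_mod_cast h
    exact (abs_sub_le_iff.2 ⟨by linarith, by linarith⟩).trans (neg_le_abs _)

/-- A point is nearer to the points on its side than to their reflections. -/
theorem circ_order (a s t : ℝ) :
    ((Int.fract (s - a) ≤ 1 / 2 ↔ Int.fract (t - a) ≤ 1 / 2) →
        circ (s - t) ≤ circ (s - (2 * a - t))) ∧
      (¬(Int.fract (s - a) ≤ 1 / 2 ↔ Int.fract (t - a) ≤ 1 / 2) →
        circ (s - (2 * a - t)) ≤ circ (s - t)) := by
  obtain ⟨e, k, he, hsk⟩ := exists_fold a s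
  obtain ⟨d, l, hd, htl⟩ := exists_fold a t
  have key := circ_sub_le_circ_add he hd
  have hneg : ∀ u v : ℝ, u = -v → circ u = circ v := fun u v h => by rw [h, circ_neg]
  rcases hsk with ⟨hs, rfl⟩ | ⟨hs, rfl⟩ <;> rcases htl with ⟨ht, rfl⟩ | ⟨ht, rfl⟩
  · refine ⟨fun _ => ?_, fun h => absurd (iff_of_true hs ht) h⟩
    rw [show a + e + k - (a + d + l) = e - d + ((k - l : ℤ) : ℝ) by push_cast; ring,
      show a + e + k - (2 * a - (a + d + l)) = e + d + ((k + l : ℤ) : ℝ) by push_cast; ring,
      circ_add_int, circ_add_int]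
    exact key
  · refine ⟨fun h => absurd (h.1 hs) (not_le.2 ht), fun _ => ?_⟩
    rw [show a + e + k - (a - d + l) = e + d + ((k - l : ℤ) : ℝ) by push_cast; ring,
      show a + e + k - (2 * a - (a - d + l)) = e - d + ((k + l : ℤ) : ℝ) by push_cast; ring,
      circ_add_int, circ_add_int]
    exact key
  · refine ⟨fun h => absurd (h.2 ht) (not_le.2 hs), fun _ => ?_⟩
    rw [show a - e + k - (a + d + l) = -(e + d) + ((k - l : ℤ) : ℝ) by push_cast; ring,
      show a - e + k - (2 * a - (a + d + l)) = -(e - d) + ((k + l : ℤ) : ℝ) by push_cast; ring,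
      circ_add_int, circ_add_int, circ_neg, circ_neg]
    exact key
  · refine ⟨fun _ => ?_, fun h => absurd (iff_of_false (not_le.2 hs) (not_le.2 ht)) h⟩
    rw [show a - e + k - (a - d + l) = -(e - d) + ((k - l : ℤ) : ℝ) by push_cast; ring,
      show a - e + k - (2 * a - (a - d + l)) = -(e + d) + ((k + l : ℤ) : ℝ) by push_cast; ring,
      circ_add_int, circ_add_int, circ_neg, circ_neg]
    exact key

/-- A continuous function of the nonnegative distances, decreasing in each of them. -/
structure Profile (P : (Fin n → ℝ) → ℝ) : Prop where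
  cont : Continuous P
  anti : ∀ p q : Fin n → ℝ, (∀ k, 0 ≤ p k) → (∀ k, p k ≤ q k) → P q ≤ P p

/-- The periodic kernel of a profile. -/
def ker (P : (Fin n → ℝ) → ℝ) (z : Fin n → ℝ) : ℝ := P fun k => circ (z k)

variable {P : (Fin n → ℝ) → ℝ}

theorem continuous_ker (hP : Profile P) : Continuous (ker P) :=
  hP.cont.comp (continuous_pi fun k => continuous_circ.comp (continuous_apply k))

theorem per_ker : Per (ker P) := fun x j => by
  refine congrArg P (funext fun k => ?_)
  rcases eq_or_ne k j with rfl | hk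
  · simpa using circ_add_int (x k) 1
  · simp [hk]

theorem ker_neg (z : Fin n → ℝ) : ker P (-z) = ker P z := by
  simp [ker, circ_neg]

theorem ker_refl_refl (i : Fin n) (a : ℝ) (x y : Fin n → ℝ) :
    ker P (refl i a x - refl i a y) = ker P (x - y) := by
  refine congrArg P (funext fun k => ?_)
  rcases eq_or_ne k i with rfl | hk
  · simp only [Pi.sub_apply, refl_apply_self]
    rw [show 2 * a - x k - (2 * a - y k) = -(x k - y k) by ring, circ_neg]
  · simp [refl_apply_of_ne hk]

theorem ker_refl_left (i : Fin n) (a : ℝ) (x y : Fin n → ℝ) :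
    ker P (refl i a x - y) = ker P (x - refl i a y) := by
  rw [← ker_refl_refl i a (refl i a x) y, refl_refl]

theorem ker_order (hP : Profile P) (i : Fin n) (a : ℝ) (x y : Fin n → ℝ) :
    ((InHalf i a x ↔ InHalf i a y) → ker P (x - refl i a y) ≤ ker P (x - y)) ∧
      (¬(InHalf i a x ↔ InHalf i a y) → ker P (x - y) ≤ ker P (x - refl i a y)) := by
  constructor <;> intro h <;> refine hP.anti _ _ (fun k => circ_nonneg _) fun k => ?_ <;>
    rcases eq_or_ne k i with rfl | hk <;>
    first
      | simp [refl_apply_of_ne hk]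
      | (simp only [Pi.sub_apply, refl_apply_self]
         first
           | exact (circ_order a (x k) (y k)).1 h
           | exact (circ_order a (x k) (y k)).2 h)

end Vale.Agent.P232.Symm
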