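import Vale.Agent.P232.Symm.Mollify

/-!
# P232: symmetrisation does not increase the total variation

The averaged differences against a shrinking radial kernel tend to a multiple of the total
variation, so the sorted smooth competitor has no more of it.
-/

noncomputable section

open MeasureTheory Filter Topology Set Function
open scoped NNReal RealInnerProductSpace

namespace Vale.Agent.P232.Symm

variable {n : ℕ}

/-- The radial tent. -/
def tent (z : Fin n → ℝ) : ℝ := max 0 (1 - ∑ k, z k ^ 2)

theorem continuous_tent : Continuous (tent (n := n)) :=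
  continuous_const.max (continuous_const.sub
    (continuous_finsetSum _ fun k _ => (continuous_apply k).pow 2))

theorem tent_nonneg (z : Fin n → ℝ) : 0 ≤ tent z := le_max_left _ _

theorem tent_zero {z : Fin n → ℝ} (h : ∃ k, 1 ≤ |z k|) : tent z = 0 := by
  obtain ⟨k, hk⟩ := h
  refine max_eq_left (sub_nonpos.2 (le_trans ?_
    (Finset.single_le_sum (fun j _ => sq_nonneg (z j)) (Finset.mem_univ k))))
  nlinarith [sq_abs (z k)]

theorem tent_zero_of_norm {z : Fin n → ℝ} (h : 1 < ‖z‖) : tent z = 0 := by
  refine tent_zero ?_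
  by_contra h'
  push Not at h'
  exact absurd ((pi_norm_le_iff_of_nonneg zero_le_one).2 fun k => (h' k).le) (not_le.2 h)

theorem hasCompactSupport_tent : HasCompactSupport (tent (n := n)) :=
  HasCompactSupport.intro (isCompact_closedBall 0 1) fun z hz =>
    tent_zero_of_norm (by simpa using hz)

theorem profile_tent {h : ℝ} (hh : 0 < h) : Profile fun p : Fin n → ℝ => tent (h⁻¹ • p) where
  cont := continuous_tent.comp (continuous_const_smul _)
  anti := fun p q hp hpq => by
    refine max_le_max le_rfl (sub_le_sub_left (Finset.sum_le_sum fun k _ => ?_) 1)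
    simp only [Pi.smul_apply, smul_eq_mul]
    exact pow_le_pow_left₀ (mul_nonneg (inv_nonneg.2 hh.le) (hp k))
      (mul_le_mul_of_nonneg_left (hpq k) (inv_nonneg.2 hh.le)) 2

theorem diffEnergy_tent {h : ℝ} (hh : 0 < h) (hh1 : h ≤ 1 / 2) {g : (Fin n → ℝ) → ℝ}
    (hg : Continuous g) (hp : Per g) :
    diffEnergy (fun p => tent (h⁻¹ • p)) g = h ^ n * ∫ z, tent z * change g (h • z) := by
  rw [diffEnergy_eq (profile_tent hh) hg hp,
    integral_centre (F := fun w => ker (fun p => tent (h⁻¹ • p)) w * change g w)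
      (ψ := fun w => tent (h⁻¹ • w) * change g w)
      ((continuous_ker (profile_tent hh)).mul (continuous_change hg))
      (fun w j => by
        simp only [per_ker (P := fun p => tent (h⁻¹ • p)) w j, per_change hp w j])
      (fun w hw => ?_) (fun w hw => ?_)]
  · have h2 := Measure.integral_comp_smul (volume : Measure (Fin n → ℝ))
      (fun z => tent z * change g (h • z)) h⁻¹
    simp only [smul_smul, mul_inv_cancel₀ hh.ne', one_smul, Module.finrank_fin_fun,
      inv_pow, inv_inv, abs_of_pos (pow_pos hh n), smul_eq_mul] at h2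
    exact h2
  · congr 1
    simp only [ker, tent, Pi.smul_apply, smul_eq_mul, fun k => circ_eq_abs (hw k), mul_pow, sq_abs]
  · obtain ⟨k, hk⟩ := hw
    rw [tent_zero ⟨k, ?_⟩, zero_mul]
    rw [Pi.smul_apply, smul_eq_mul, abs_mul, abs_inv, abs_of_pos hh]
    rw [le_inv_mul_iff₀ hh]
    linarith

/-- The first order change of `g`, averaged over the box. -/
def linearChange (g : (Fin n → ℝ) → ℝ) (z : Fin n → ℝ) : ℝ :=
  ∫ x in box n, |fderiv ℝ g x z|

theorem continuous_linearChange {g : (Fin n → ℝ) → ℝ} (hg : ContDiff ℝ 1 g) :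
    Continuous (linearChange g) :=
  continuous_boxInt (F := fun z x => |fderiv ℝ g x z|)
    ((((hg.continuous_fderiv one_ne_zero).comp continuous_snd).clm_apply continuous_fst).abs)

theorem linearChange_smul (g : (Fin n → ℝ) → ℝ) {h : ℝ} (hh : 0 ≤ h) (z : Fin n → ℝ) :
    linearChange g (h • z) = h * linearChange g z := by
  simp only [linearChange, map_smul, smul_eq_mul, abs_mul, abs_of_nonneg hh, integral_const_mul]

theorem change_near_linear {g : (Fin n → ℝ) → ℝ} (hg : ContDiff ℝ 1 g) (hp : Per g) {ε : ℝ}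
    (hε : 0 < ε) : ∃ ρ > 0, ∀ w, ‖w‖ ≤ ρ → |change g w - linearChange g w| ≤ ε * ‖w‖ := by
  have hd := hg.continuous_fderiv one_ne_zero
  obtain ⟨δ, hδ, huc⟩ := Metric.uniformContinuousOn_iff.1
    ((isCompact_closedBall (0 : Fin n → ℝ) 3).uniformContinuousOn_of_continuous hd.continuousOn) ε hε
  refine ⟨min (δ / 2) 1, by positivity, fun w hw => ?_⟩
  set Φ : (Fin n → ℝ) → ℝ := fun x => |g (x + w) - g x - fderiv ℝ g x w| with hΦ
  have hΦp : Per Φ := fun x j => by
    have e : fderiv ℝ g (x + Pi.single j 1) = fderiv ℝ g x := by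
      rw [← fderiv_comp_add_right, show (fun y => g (y + Pi.single j 1)) = g from
        funext fun y => hp y j]
    simp only [hΦ, e, hp x j, add_right_comm x (Pi.single j 1) w, hp (x + w) j]
  have hΦle : ∀ x, Φ x ≤ ε * ‖w‖ := by
    intro x
    rw [← fract_eq hΦp x]
    set y : Fin n → ℝ := fun j => Int.fract (x j) with hy
    have hy1 : ‖y‖ ≤ 1 := (pi_norm_le_iff_of_nonneg zero_le_one).2 fun j => by
      rw [Real.norm_eq_abs, abs_of_nonneg (Int.fract_nonneg _)]
      exact (Int.fract_lt_one _).le
    have hsub : ∀ z ∈ Metric.closedBall y ‖w‖, ‖z‖ ≤ 2 := fun z hz => by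
      rw [mem_closedBall_iff_norm] at hz
      have := norm_le_norm_add_norm_sub' z y
      have := hw.trans (min_le_right _ _)
      linarith
    have := (convex_closedBall y ‖w‖).norm_image_sub_le_of_norm_fderiv_le' (f := g)
      (φ := fderiv ℝ g y) (C := ε) (fun z _ => hg.differentiable one_ne_zero z)
      (fun z hz => ?_) (Metric.mem_closedBall_self (norm_nonneg w))
      (show y + w ∈ Metric.closedBall y ‖w‖ by simp)
    · simpa [hΦ, Real.norm_eq_abs] using this
    · rw [← dist_eq_norm]
      refine (huc z (mem_closedBall_zero_iff.2 (by linarith [hsub z hz]))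
        y (mem_closedBall_zero_iff.2 (by linarith)) ?_).le
      have := hw.trans (min_le_left _ _)
      rw [Metric.mem_closedBall] at hz
      linarith
  have hgc := hg.continuous
  have h1 : IntegrableOn (fun x => |g (x + w) - g x|) (box n) := integrableOn_box (by fun_prop)
  have h2 : IntegrableOn (fun x => |fderiv ℝ g x w|) (box n) :=
    integrableOn_box (hd.clm_apply continuous_const).abs
  rw [change, linearChange, ← integral_sub h1 h2, ← Real.norm_eq_abs]
  refine (norm_setIntegral_le_of_norm_le_const (measure_lt_top (volume.restrict (box n)) univ |>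
    fun h => by simpa using h) fun x _ => ?_).trans_eq (by rw [volume_box, mul_one])
  exact (abs_abs_sub_abs_le_abs_sub _ _).trans (hΦle x)

/-- The averaged first order change. -/
def linearEnergy (g : (Fin n → ℝ) → ℝ) : ℝ := ∫ z, tent z * linearChange g z

theorem tendsto_change {g : (Fin n → ℝ) → ℝ} (hg : ContDiff ℝ 1 g) (hp : Per g) {ε : ℝ}
    (hε : 0 < ε) : ∃ ρ > 0, ∀ h, 0 < h → h ≤ ρ →
      |(∫ z, tent z * change g (h • z)) - h * linearEnergy g| ≤
        ε * h * ∫ z : Fin n → ℝ, tent z := by
  obtain ⟨ρ, hρ, hnear⟩ := change_near_linear hg hp hε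
  refine ⟨ρ, hρ, fun h hh hhρ => ?_⟩
  have htI : Integrable (tent (n := n)) :=
    continuous_tent.integrable_of_hasCompactSupport hasCompactSupport_tent
  have hi : ∀ {F : (Fin n → ℝ) → ℝ}, Continuous F → Integrable fun z => tent z * F z := fun hF =>
    (continuous_tent.mul hF).integrable_of_hasCompactSupport hasCompactSupport_tent.mul_right
  have hc1 := (continuous_change hg.continuous).comp (continuous_const_smul h)
  have hc2 := continuous_linearChange hg
  rw [linearEnergy, ← integral_const_mul, ← integral_sub (f := fun z => tent z * change g (h • z))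
    (g := fun z => h * (tent z * linearChange g z)) (hi hc1) ((hi hc2).const_mul h),
    ← integral_const_mul, ← Real.norm_eq_abs]
  refine norm_integral_le_of_norm_le (htI.const_mul (ε * h)) (Eventually.of_forall fun z => ?_)
  rcases le_or_gt ‖z‖ 1 with hz | hz
  · have hn : ‖h • z‖ ≤ h := by
      rw [norm_smul, Real.norm_eq_abs, abs_of_pos hh]; exact mul_le_of_le_one_right hh.le hz
    have hb : |change g (h • z) - h * linearChange g z| ≤ ε * h := by
      rw [← linearChange_smul g hh.le z]
      exact (hnear _ (hn.trans hhρ)).trans (mul_le_mul_of_nonneg_left hn hε.le)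
    rw [Real.norm_eq_abs, show tent z * change g (h • z) - h * (tent z * linearChange g z) =
      tent z * (change g (h • z) - h * linearChange g z) by ring, abs_mul,
      abs_of_nonneg (tent_nonneg z), mul_comm (ε * h)]
    exact mul_le_mul_of_nonneg_left hb (tent_nonneg z)
  · simp [tent_zero_of_norm hz]

/-- The constant in the averaged first order change. -/
def tentConst (n : ℕ) : ℝ := ∫ z : Fin (n + 1) → ℝ, tent z * |z 0|

theorem tentConst_pos (n : ℕ) : 0 < tentConst n := by
  refine (continuous_tent.mul (continuous_apply 0).abs).integral_pos_of_hasCompactSupport_nonneg_nonzero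
    hasCompactSupport_tent.mul_right (fun z => mul_nonneg (tent_nonneg z) (abs_nonneg _))
    (x := Pi.single 0 (1 / 2)) ?_
  have h1 : ∑ k, (Pi.single (0 : Fin (n + 1)) (1 / 2 : ℝ) : Fin (n + 1) → ℝ) k ^ 2 = 1 / 4 := by
    rw [Fintype.sum_eq_single 0 fun k hk => by simp [hk]]
    norm_num
  refine (mul_pos (lt_max_of_lt_right ?_) ?_).ne'
  · rw [h1]; norm_num
  · simp

theorem tent_dot (v : Fin (n + 1) → ℝ) :
    ∫ z, tent z * |∑ k, v k * z k| = tentConst n * Real.sqrt (∑ k, v k ^ 2) := by
  set E := EuclideanSpace ℝ (Fin (n + 1)) with hE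
  have key : ∀ u : Fin (n + 1) → ℝ, ∫ z, tent z * |∑ k, u k * z k| =
      ∫ y : E, max 0 (1 - ‖y‖ ^ 2) * |⟪WithLp.toLp 2 u, y⟫| := by
    intro u
    rw [← (PiLp.volume_preserving_toLp (Fin (n + 1))).integral_comp
      (MeasurableEquiv.toLp 2 (Fin (n + 1) → ℝ)).measurableEmbedding
      (fun y : E => max 0 (1 - ‖y‖ ^ 2) * |⟪WithLp.toLp 2 u, y⟫|)]
    refine integral_congr_ae (Eventually.of_forall fun z => ?_)
    have hn : ‖(WithLp.toLp 2 z : E)‖ ^ 2 = ∑ k, z k ^ 2 := by
      rw [EuclideanSpace.norm_sq_eq]; simp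
    simp only [tent, hn]
    simp [PiLp.inner_apply, mul_comm]
  set a : E := WithLp.toLp 2 v with ha
  set b : E := WithLp.toLp 2 (Pi.single 0 ‖a‖) with hb
  have hab : ‖a‖ = ‖b‖ := by
    simp only [hb, PiLp.toLp_single]
    exact (norm_norm a).symm.trans (PiLp.norm_single (p := 2) (β := fun _ => ℝ) (0 : Fin (n + 1)) ‖a‖).symm
  set R := Submodule.reflection (ℝ ∙ (a - b))ᗮ with hR
  have hRab : R a = b := Submodule.reflection_sub hab
  have hnorm : Real.sqrt (∑ k, v k ^ 2) = ‖a‖ := by
    rw [EuclideanSpace.norm_eq]; simp [ha]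
  rw [key v, hnorm, tentConst, mul_comm, ← integral_const_mul]
  rw [← R.measurePreserving.integral_comp R.toHomeomorph.measurableEmbedding
    (fun y : E => max 0 (1 - ‖y‖ ^ 2) * |⟪a, y⟫|)]
  have e : ∀ y : E, ⟪a, R y⟫ = ⟪b, y⟫ := fun y => by
    rw [← hRab, ← R.inner_map_map a (R y), Submodule.reflection_reflection]
  simp only [LinearIsometryEquiv.norm_map, e]
  rw [← key (Pi.single 0 ‖a‖)]
  refine integral_congr_ae (Eventually.of_forall fun z => ?_)
  simp [Pi.single_apply, abs_mul]
  rw [abs_of_nonneg (norm_nonneg a)]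
  ring

theorem linearEnergy_eq {g : (Fin (n + 1) → ℝ) → ℝ} (hg : ContDiff ℝ 1 g) :
    linearEnergy g = tentConst n * energy g := by
  have hd := hg.continuous_fderiv one_ne_zero
  have hF : Continuous (uncurry fun (z : Fin (n + 1) → ℝ) x => tent z * |fderiv ℝ g x z|) :=
    (continuous_tent.comp continuous_fst).mul
      (((hd.comp continuous_snd).clm_apply continuous_fst).abs)
  set K : Set (Fin (n + 1) → ℝ) := Metric.closedBall 0 1 with hK
  have hout : ∀ z ∉ K, tent z = 0 := fun z hz => tent_zero_of_norm (by simpa [hK] using hz)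
  calc linearEnergy g = ∫ z in K, ∫ x in box (n + 1), tent z * |fderiv ℝ g x z| := by
        rw [linearEnergy, setIntegral_eq_integral_of_forall_compl_eq_zero fun z hz => by
          simp [hout z hz]]
        simp only [linearChange, integral_const_mul]
    _ = ∫ x in box (n + 1), ∫ z in K, tent z * |fderiv ℝ g x z| := by
        refine integral_integral_swap ?_
        rw [Measure.prod_restrict, ← Measure.volume_eq_prod]
        refine (hF.continuousOn.integrableOn_compact
          ((isCompact_closedBall (0 : Fin (n + 1) → ℝ) 1).prod (isCompact_Icc (a := (0 : Fin (n + 1) → ℝ)) (b := 1)))).mono_set ?_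
        exact prod_mono subset_rfl fun x hx => ⟨fun k => (hx k).1, fun k => (hx k).2.le⟩
    _ = ∫ x in box (n + 1), tentConst n * grad g x := by
        refine setIntegral_congr_fun measurableSet_box fun x _ => ?_
        rw [setIntegral_eq_integral_of_forall_compl_eq_zero fun z hz => by simp [hout z hz], grad,
          ← tent_dot]
        refine integral_congr_ae (Eventually.of_forall fun z => ?_)
        simp only
        congr 2
        conv_lhs => rw [pi_eq_sum_univ z]
        simp only [map_sum, map_smul, smul_eq_mul, pd]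
        refine Finset.sum_congr rfl fun k _ => ?_
        rw [mul_comm]
        congr 2
        funext j
        simp [Pi.single_apply, eq_comm]
    _ = tentConst n * energy g := integral_const_mul _ _

theorem energy_le_of_change_le {u g : (Fin (n + 1) → ℝ) → ℝ} (hu : ContDiff ℝ 1 u) (hup : Per u)
    (hg : ContDiff ℝ 1 g) (hgp : Per g)
    (h : ∀ t : ℝ, 0 < t → t ≤ 1 / 2 → ∫ z, tent z * change g (t • z) ≤ ∫ z, tent z * change u (t • z)) :
    energy g ≤ energy u := by
  set S := ∫ z : Fin (n + 1) → ℝ, tent z with hS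
  have hS0 : 0 ≤ S := integral_nonneg tent_nonneg
  refine le_of_mul_le_mul_left ?_ (tentConst_pos n)
  rw [← linearEnergy_eq hu, ← linearEnergy_eq hg]
  refine le_of_forall_pos_le_add fun e he => ?_
  set ε := e / (2 * (S + 1)) with hε
  have hεpos : 0 < ε := by positivity
  obtain ⟨ρ₁, hρ₁, h1⟩ := tendsto_change hu hup hεpos
  obtain ⟨ρ₂, hρ₂, h2⟩ := tendsto_change hg hgp hεpos
  set t := min (min ρ₁ ρ₂) (1 / 2) with ht
  have htpos : 0 < t := by positivity
  have a1 := abs_le.1 (h1 t htpos ((min_le_left _ _).trans (min_le_left _ _)))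
  have a2 := abs_le.1 (h2 t htpos ((min_le_left _ _).trans (min_le_right _ _)))
  have a3 := h t htpos (min_le_right _ _)
  have hes : 2 * ε * S ≤ e := by
    rw [hε, show 2 * (e / (2 * (S + 1))) * S = e * (S / (S + 1)) by field_simp]
    exact mul_le_of_le_one_right he.le ((div_le_one (by linarith)).2 (by linarith))
  refine le_of_mul_le_mul_left ?_ htpos
  nlinarith [mul_le_mul_of_nonneg_left hes htpos.le, a1.2, a2.1]

/-- A periodic `C¹` function has a Lipschitz constant. -/
theorem exists_lipschitz {u : (Fin n → ℝ) → ℝ} (hu : ContDiff ℝ 1 u) (hp : Per u) :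
    ∃ L : ℝ≥0, LipschitzWith L u := by
  have hd := hu.continuous_fderiv one_ne_zero
  obtain ⟨B, hB⟩ := (isCompact_Icc (a := (0 : Fin n → ℝ)) (b := 1)).exists_bound_of_continuousOn
    hd.norm.continuousOn
  have hper : Per fun x => ‖fderiv ℝ u x‖ := fun x j => by
    simp only
    rw [← fderiv_comp_add_right, show (fun y => u (y + Pi.single j 1)) = u from
      funext fun y => hp y j]
  refine ⟨B.toNNReal, lipschitzWith_of_nnnorm_fderiv_le (hu.differentiable one_ne_zero) fun x => ?_⟩
  rw [← NNReal.coe_le_coe, coe_nnnorm]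
  refine le_trans ?_ (Real.le_coe_toNNReal B)
  rw [← fract_eq hper x]
  simpa using hB _ ⟨fun j => Int.fract_nonneg _, fun j => (Int.fract_lt_one _).le⟩

/-- A smooth competitor which is even in every coordinate and decreasing on the half period, its
means over the hyperplanes being at least as spread out. -/
theorem exists_symmetric_spread {u : (Fin (n + 1) → ℝ) → ℝ} (hu : Adm u) {δ : ℝ} (hδ : 0 < δ) :
    ∃ w : (Fin (n + 1) → ℝ) → ℝ, Adm w ∧ mean w = mean u ∧ dfct w ≤ dfct u + δ ∧ energy w ≤ energy u ∧
      (∀ i x, w (update x i (-x i)) = w x) ∧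
      (∀ i x, AntitoneOn (fun t => w (update x i t)) (Icc 0 (1 / 2))) ∧
      ∀ i, planeSq u i ≤ planeSq w i + 2 * δ := by
  obtain ⟨L, hL⟩ := exists_lipschitz hu.smooth hu.per
  obtain ⟨f, hf, hsort⟩ := exists_sorted hu.per hL hu.mem
  obtain ⟨g, hg, hgsort, hmean, hdfct, hchange, hnear⟩ := exists_smooth hf.per hf.lip hf.mem hsort
    (δ := min (1 / 2) (δ / (L + 1))) (by positivity) (min_le_left _ _)
  have hLδ : (L : ℝ) * min (1 / 2) (δ / (L + 1)) ≤ δ := by
    calc (L : ℝ) * min (1 / 2) (δ / (L + 1)) ≤ L * (δ / (L + 1)) :=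
          mul_le_mul_of_nonneg_left (min_le_right _ _) L.coe_nonneg
      _ = δ * (L / (L + 1)) := by ring
      _ ≤ δ := mul_le_of_le_one_right hδ.le
          ((div_le_one (by positivity)).2 (by linarith))
  refine ⟨g, hg, hmean.trans hf.mean_eq, ?_, ?_, fun i x => hgsort.even hg.per i x,
    fun i x => hgsort.antitone hg.per i x,
    fun i => (hf.planeSq_le i).trans (planeSq_near hf.lip.continuous hg.smooth.continuous hf.mem hg.mem
      (fun x => (abs_sub_comm _ _).trans_le ((hnear x).trans hLδ)) i)⟩
  · rw [hf.dfct_eq] at hdfct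
    exact hdfct.trans (add_le_add le_rfl hLδ)
  · refine energy_le_of_change_le hu.smooth hu.per hg.smooth hg.per fun t ht ht1 => ?_
    have h1 := hf.diff_le _ (profile_tent ht)
    rw [diffEnergy_tent ht ht1 hf.lip.continuous hf.per,
      diffEnergy_tent ht ht1 hu.smooth.continuous hu.per] at h1
    refine le_trans ?_ (le_of_mul_le_mul_left h1 (pow_pos ht _))
    refine integral_mono ?_ ?_ fun z => mul_le_mul_of_nonneg_left (hchange _) (tent_nonneg z) <;>
      refine Continuous.integrable_of_hasCompactSupport ?_ hasCompactSupport_tent.mul_right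
    · exact continuous_tent.mul ((continuous_change hg.smooth.continuous).comp (continuous_const_smul t))
    · exact continuous_tent.mul ((continuous_change hf.lip.continuous).comp (continuous_const_smul t))

/-- A smooth competitor which is even in every coordinate and decreasing on the half period. -/
theorem exists_symmetric {u : (Fin (n + 1) → ℝ) → ℝ} (hu : Adm u) {δ : ℝ} (hδ : 0 < δ) :
    ∃ w : (Fin (n + 1) → ℝ) → ℝ, Adm w ∧ mean w = mean u ∧ dfct w ≤ dfct u + δ ∧ energy w ≤ energy u ∧
      (∀ i x, w (update x i (-x i)) = w x) ∧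
      ∀ i x, AntitoneOn (fun t => w (update x i t)) (Icc 0 (1 / 2)) := by
  obtain ⟨w, h1, h2, h3, h4, h5, h6, -⟩ := exists_symmetric_spread hu hδ
  exact ⟨w, h1, h2, h3, h4, h5, h6⟩

end Vale.Agent.P232.Symm
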