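import Vale.Agent.P232.Symm.Spread

/-!
# P232: a rearrangement by repeated polarisation

Among the Lipschitz functions with the same mean and defect and no larger averaged differences, one
with the largest moment against `∑ k, cos (2 π x k)` is fixed by the polarisations towards the
origin.
-/

noncomputable section

open MeasureTheory Filter Topology Set Function
open scoped NNReal BoundedContinuousFunction

namespace Vale.Agent.P232.Symm

variable {n : ℕ}

/-- On each axis the values are sorted towards the origin. -/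
def Sorted (f : (Fin n → ℝ) → ℝ) : Prop :=
  ∀ (i : Fin n) (a : ℝ), a ∈ Icc (-(1 / 2) : ℝ) 0 → ∀ x, InHalf i a x → f (refl i a x) ≤ f x

theorem Sorted.even {f : (Fin n → ℝ) → ℝ} (h : Sorted f) (hp : Per f) (i : Fin n)
    (x : Fin n → ℝ) : f (update x i (-x i)) = f x := by
  have key : ∀ y, f (refl i 0 y) ≤ f y := by
    intro y
    by_cases hy : InHalf i 0 y
    · exact h i 0 ⟨by norm_num, le_rfl⟩ y hy
    · rw [InHalf, sub_zero, not_le] at hy
      have h2 : InHalf i (-(1 / 2)) y := by
        rw [InHalf, show y i - -(1 / 2) = (Int.fract (y i) - 1 / 2) + ((⌊y i⌋ + 1 : ℤ) : ℝ) by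
          push_cast; linarith [Int.fract_add_floor (y i)], Int.fract_add_intCast,
          Int.fract_eq_self.2 ⟨by linarith, by linarith [Int.fract_lt_one (y i)]⟩]
        linarith [Int.fract_lt_one (y i)]
      have h3 := h i (-(1 / 2)) ⟨le_rfl, by norm_num⟩ y h2
      have e : refl i 0 y = refl i (-(1 / 2)) y + Pi.single i 1 := by
        funext k
        rcases eq_or_ne k i with rfl | hk <;> simp [refl_apply_self, refl_apply_of_ne, *]
        ring
      rwa [e, hp]
  have e : update x i (-x i) = refl i 0 x := by simp [refl]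
  rw [e]
  exact le_antisymm (key x) (by simpa using key (refl i 0 x))

theorem Sorted.antitone {f : (Fin n → ℝ) → ℝ} (h : Sorted f) (hp : Per f) (i : Fin n)
    (x : Fin n → ℝ) : AntitoneOn (fun t => f (update x i t)) (Icc 0 (1 / 2)) := by
  intro s hs t ht hst
  obtain ⟨hs0, hs1⟩ := hs
  obtain ⟨ht0, ht1⟩ := ht
  have hH : InHalf i ((s + t) / 2 - 1 / 2) (update x i s) := by
    rw [InHalf, update_self, Int.fract_eq_self.2 ⟨by linarith, by linarith⟩]
    linarith
  have h1 := h i _ ⟨by linarith, by linarith⟩ _ hH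
  have e : refl i ((s + t) / 2 - 1 / 2) (update x i s) + Pi.single i 1 = update x i t := by
    funext k
    rcases eq_or_ne k i with rfl | hk <;> simp [refl_apply_self, refl_apply_of_ne, *]
    ring
  rw [← hp _ i, e] at h1
  exact h1

/-- The moment favouring sorted functions. -/
def pull (x : Fin n → ℝ) : ℝ := ∑ k, Real.cos (2 * Real.pi * x k)

theorem continuous_pull : Continuous (pull (n := n)) :=
  continuous_finsetSum _ fun k _ => Real.continuous_cos.comp (continuous_const.mul (continuous_apply k))

theorem per_pull : Per (pull (n := n)) := fun x j => by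
  refine Finset.sum_congr rfl fun k _ => ?_
  rcases eq_or_ne k j with rfl | hk
  · rw [Pi.add_apply, Pi.single_eq_same, mul_add, mul_one, Real.cos_add_two_pi]
  · simp [hk]

theorem pull_sub_refl (i : Fin n) (a : ℝ) (x : Fin n → ℝ) :
    pull x - pull (refl i a x) =
      -2 * Real.sin (2 * Real.pi * a) * Real.sin (2 * Real.pi * (x i - a)) := by
  rw [pull, pull, ← Finset.sum_sub_distrib, Finset.sum_eq_single i
    (fun k _ hk => by simp [refl_apply_of_ne hk]) (by simp), refl_apply_self, Real.cos_sub_cos,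
    show (2 * Real.pi * x i + 2 * Real.pi * (2 * a - x i)) / 2 = 2 * Real.pi * a by ring,
    show (2 * Real.pi * x i - 2 * Real.pi * (2 * a - x i)) / 2 = 2 * Real.pi * (x i - a) by ring]

theorem sin_fract (t : ℝ) : Real.sin (2 * Real.pi * t) = Real.sin (2 * Real.pi * Int.fract t) := by
  rw [show 2 * Real.pi * t = 2 * Real.pi * Int.fract t + (⌊t⌋ : ℝ) * (2 * Real.pi) by
    linear_combination (-(2 * Real.pi)) * Int.fract_add_floor t, Real.sin_add_int_mul_two_pi]

theorem sin_side (t : ℝ) :
    (Int.fract t ≤ 1 / 2 → 0 ≤ Real.sin (2 * Real.pi * t)) ∧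
      (1 / 2 < Int.fract t → Real.sin (2 * Real.pi * t) < 0) := by
  have h0 := Int.fract_nonneg t
  have h1 := Int.fract_lt_one t
  have hpi := Real.pi_pos
  rw [sin_fract]
  constructor <;> intro h
  · exact Real.sin_nonneg_of_nonneg_of_le_pi (by positivity) (by nlinarith)
  · rw [← Real.sin_sub_two_pi]
    exact Real.sin_neg_of_neg_of_neg_pi_lt (by nlinarith) (by nlinarith)

theorem fract_mid_of_sin_pos {t : ℝ} (h : 0 < Real.sin (2 * Real.pi * t)) :
    Int.fract t ≤ 1 / 2 := le_of_not_gt fun h' => absurd ((sin_side t).2 h') (not_lt.2 h.le)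

theorem zero_of_integral_zero {F : (Fin n → ℝ) → ℝ} (hF : Continuous F) (hp : Per F)
    (h0 : ∀ x, 0 ≤ F x) (hint : ∫ x in box n, F x ≤ 0) (x₀ : Fin n → ℝ) : F x₀ = 0 := by
  set c : Fin n → ℝ := fun k => x₀ k - 1 / 2 with hc
  set G := fun x => F (x + c) with hG
  have hGc : Continuous G := hF.comp (continuous_id.add continuous_const)
  have hz : ∫ x in box n, G x = 0 :=
    le_antisymm ((integral_box_add hF hp c).trans_le hint)
      (setIntegral_nonneg measurableSet_box fun x _ => h0 _)
  have hae : G =ᵐ[volume.restrict (box n)] fun _ => 0 :=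
    (integral_eq_zero_iff_of_nonneg (fun x => h0 _) (integrableOn_box hGc)).1 hz
  have hU : IsOpen (pi univ fun _ : Fin n => Ioo (0 : ℝ) 1) :=
    isOpen_set_pi finite_univ fun _ _ => isOpen_Ioo
  have hsub : (pi univ fun _ : Fin n => Ioo (0 : ℝ) 1) ⊆ box n :=
    fun x hx k => Ioo_subset_Ico_self (hx k trivial)
  have := Measure.eqOn_open_of_ae_eq (ae_restrict_of_ae_restrict_of_subset hsub hae) hU
    hGc.continuousOn continuousOn_const
  have h := @this (fun _ => 1 / 2) (fun k _ => ⟨by norm_num, by norm_num⟩)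
  simp only [hG] at h
  rwa [show (fun _ : Fin n => (1 / 2 : ℝ)) + c = x₀ by funext k; simp [hc]] at h

/-- The competitors of a rearrangement. -/
structure Comp (u : (Fin n → ℝ) → ℝ) (L : ℝ≥0) (f : (Fin n → ℝ) → ℝ) : Prop where
  per : Per f
  lip : LipschitzWith L f
  mem : ∀ x, f x ∈ Icc (0 : ℝ) 1
  mean_eq : mean f = mean u
  dfct_eq : dfct f = dfct u
  diff_le : ∀ P, Profile P → diffEnergy P f ≤ diffEnergy P u
  planeSq_le : ∀ i, planeSq u i ≤ planeSq f i

theorem Comp.polar {u f : (Fin (n + 1) → ℝ) → ℝ} {L : ℝ≥0} (h : Comp u L f) (i : Fin (n + 1))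
    (a : ℝ) : Comp u L (Symm.polar i a f) where
  per := per_polar h.per i a
  lip := lipschitz_polar h.per h.lip i a
  mem := fun x => by
    rcases polar_pair h.per i a x with ⟨e, -⟩ | ⟨e, -⟩ <;> rw [e] <;> exact h.mem _
  mean_eq := (integral_polar_comp (φ := fun t => t) h.per h.lip i a continuous_id).trans h.mean_eq
  dfct_eq := (integral_polar_comp (φ := fun t => t * (1 - t)) h.per h.lip i a
    (continuous_id.mul (continuous_const.sub continuous_id))).trans h.dfct_eq
  diff_le := fun P hP => (diffEnergy_polar_le hP h.per h.lip i a).trans (h.diff_le P hP)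
  planeSq_le := fun j => (h.planeSq_le j).trans (planeSq_polar_le h.per h.lip j i a)

theorem abs_ker_le {P : (Fin n → ℝ) → ℝ} (hP : Profile P) (z : Fin n → ℝ) :
    |ker P z| ≤ |P 0| + |P fun _ => 1 / 2| := by
  have h1 := hP.anti 0 (fun k => circ (z k)) (fun _ => le_rfl) fun k => circ_nonneg _
  have h2 := hP.anti (fun k => circ (z k)) (fun _ => 1 / 2) (fun k => circ_nonneg _)
    fun k => abs_sub_round (z k)
  unfold ker
  refine abs_le.2 ⟨?_, ?_⟩ <;>
    linarith [le_abs_self (P 0), neg_abs_le (P fun _ => 1 / 2), abs_nonneg (P 0),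
      abs_nonneg (P fun _ => 1 / 2)]

theorem tendsto_diffEnergy {P : (Fin n → ℝ) → ℝ} (hP : Profile P)
    {f : ℕ → (Fin n → ℝ) → ℝ} {g : (Fin n → ℝ) → ℝ} (hf : ∀ k, Continuous (f k))
    (hb : ∀ k x, f k x ∈ Icc (0 : ℝ) 1) (hlim : ∀ x, Tendsto (fun k => f k x) atTop (𝓝 (g x))) :
    Tendsto (fun k => diffEnergy P (f k)) atTop (𝓝 (diffEnergy P g)) := by
  set B := |P 0| + |P fun _ => 1 / 2| with hB
  have hker := continuous_ker hP
  have hterm : ∀ k x y, ‖ker P (x - y) * |f k x - f k y|‖ ≤ B := by
    intro k x y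
    rw [norm_mul, Real.norm_eq_abs, Real.norm_eq_abs, abs_abs]
    refine (mul_le_mul (abs_ker_le hP _) (abs_sub_le_iff.2 ⟨?_, ?_⟩) (abs_nonneg _)
      (by positivity)).trans_eq (mul_one _) <;> linarith [(hb k x).1, (hb k x).2, (hb k y).1, (hb k y).2]
  have hF : ∀ k, Continuous (uncurry fun x y => ker P (x - y) * |f k x - f k y|) := fun k => by
    have := hf k
    simp only [uncurry_def]
    fun_prop
  refine tendsto_integral_of_dominated_convergence (fun _ => B)
    (fun k => (continuous_boxInt (hF k)).aestronglyMeasurable) (integrableOn_box continuous_const)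
    (fun k => Eventually.of_forall fun x => ?_) (Eventually.of_forall fun x => ?_)
  · refine (norm_setIntegral_le_of_norm_le_const (measure_lt_top (volume.restrict (box n)) univ |>
      fun h => by simpa using h) fun y _ => hterm k x y).trans_eq ?_
    rw [volume_box, mul_one]
  · exact tendsto_integral_of_dominated_convergence (fun _ => B)
      (fun k => ((hF k).uncurry_left x).aestronglyMeasurable) (integrableOn_box continuous_const)
      (fun k => Eventually.of_forall fun y => hterm k x y)
      (Eventually.of_forall fun y => (((hlim x).sub (hlim y)).abs).const_mul _)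

theorem tendsto_box {f : ℕ → (Fin n → ℝ) → ℝ} {g w : (Fin n → ℝ) → ℝ} {φ : ℝ → ℝ}
    (hw : Continuous w) (hf : ∀ k, Continuous (f k)) (hb : ∀ k x, f k x ∈ Icc (0 : ℝ) 1)
    (hlim : ∀ x, Tendsto (fun k => f k x) atTop (𝓝 (g x))) (hφ : Continuous φ) :
    Tendsto (fun k => ∫ x in box n, φ (f k x) * w x) atTop (𝓝 (∫ x in box n, φ (g x) * w x)) := by
  obtain ⟨B, hB⟩ := (isCompact_Icc.image hφ).isBounded.exists_norm_le
  exact tendsto_integral_of_dominated_convergence (fun x => B * ‖w x‖)
    (fun k => ((hφ.comp (hf k)).mul hw).aestronglyMeasurable)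
    (integrableOn_box (continuous_const.mul hw.norm))
    (fun k => Eventually.of_forall fun x => by
      rw [norm_mul]; exact mul_le_mul_of_nonneg_right (hB _ ⟨_, hb k x, rfl⟩) (norm_nonneg _))
    (Eventually.of_forall fun x => ((hφ.tendsto _).comp (hlim x)).mul_const _)

theorem fract_eq {f : (Fin n → ℝ) → ℝ} (hp : Per f) (x : Fin n → ℝ) :
    f (fun j => Int.fract (x j)) = f x := by simpa using hp.fract x Finset.univ

theorem exists_limit {u : (Fin n → ℝ) → ℝ} {L : ℝ≥0} {f : ℕ → (Fin n → ℝ) → ℝ}
    (hf : ∀ k, Comp u L (f k)) :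
    ∃ g, Comp u L g ∧ ∃ σ : ℕ → ℕ, StrictMono σ ∧
      ∀ x, Tendsto (fun k => f (σ k) x) atTop (𝓝 (g x)) := by
  let K := ↥(Icc (0 : Fin n → ℝ) 1)
  have : CompactSpace K := isCompact_iff_compactSpace.1 isCompact_Icc
  let F : ℕ → K →ᵇ ℝ := fun k =>
    BoundedContinuousFunction.mkOfCompact ⟨fun y => f k y.1,
      (hf k).lip.continuous.comp continuous_subtype_val⟩
  have heq : Equicontinuous ((↑) : range F → K → ℝ) := by
    refine (LipschitzWith.uniformEquicontinuous _ L fun G => ?_).equicontinuous
    obtain ⟨G, k, rfl⟩ := G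
    exact LipschitzWith.of_dist_le_mul fun y z => (hf k).lip.dist_le_mul y.1 z.1
  have hcpt := BoundedContinuousFunction.arzela_ascoli (Icc (0 : ℝ) 1) isCompact_Icc (range F)
    (by rintro G y ⟨k, rfl⟩; exact (hf k).mem y.1) heq
  obtain ⟨G, -, σ, hσ, hG⟩ := hcpt.tendsto_subseq (x := F) fun k => subset_closure ⟨k, rfl⟩
  have hmemK : ∀ x : Fin n → ℝ, (fun j => Int.fract (x j)) ∈ Icc (0 : Fin n → ℝ) 1 := fun x =>
    ⟨fun j => Int.fract_nonneg _, fun j => (Int.fract_lt_one _).le⟩
  set g : (Fin n → ℝ) → ℝ := fun x => G ⟨_, hmemK x⟩ with hg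
  have hlim : ∀ x, Tendsto (fun k => f (σ k) x) atTop (𝓝 (g x)) := by
    intro x
    have := ((continuous_eval_const (F := K →ᵇ ℝ) (⟨_, hmemK x⟩ : K)).tendsto G).comp hG
    refine this.congr fun k => ?_
    simp only [Function.comp_apply]
    exact fract_eq (hf (σ k)).per x
  have hb : ∀ k x, f (σ k) x ∈ Icc (0 : ℝ) 1 := fun k => (hf (σ k)).mem
  have hc : ∀ k, Continuous (f (σ k)) := fun k => (hf (σ k)).lip.continuous
  refine ⟨g, ⟨fun x j => ?_, ?_, fun x => ?_, ?_, ?_, fun P hP => ?_, fun i => ?_⟩, σ, hσ, hlim⟩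
  · refine tendsto_nhds_unique ((hlim (x + Pi.single j 1)).congr fun k => ?_) (hlim x)
    exact (hf (σ k)).per x j
  · refine LipschitzWith.of_dist_le_mul fun x y => ?_
    exact le_of_tendsto' ((hlim x).dist (hlim y)) fun k => (hf (σ k)).lip.dist_le_mul x y
  · exact isClosed_Icc.mem_of_tendsto (hlim x) (Eventually.of_forall fun k => hb k x)
  · have h := tendsto_box (w := fun _ => 1) continuous_const hc hb hlim continuous_id
    simp only [id_eq, mul_one] at h
    exact tendsto_nhds_unique (h.congr fun k => (hf (σ k)).mean_eq) tendsto_const_nhds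
  · have h := tendsto_box (w := fun _ => 1) (φ := fun t => t * (1 - t)) continuous_const hc hb hlim
      (continuous_id.mul (continuous_const.sub continuous_id))
    simp only [mul_one] at h
    exact tendsto_nhds_unique (h.congr fun k => (hf (σ k)).dfct_eq) tendsto_const_nhds
  · exact le_of_tendsto' (tendsto_diffEnergy hP hc hb hlim) fun k => (hf (σ k)).diff_le P hP
  · exact ge_of_tendsto' (tendsto_planeSq hc hb hlim i) fun k => (hf (σ k)).planeSq_le i

theorem exists_sorted {u : (Fin (n + 1) → ℝ) → ℝ} {L : ℝ≥0} (hp : Per u) (hu : LipschitzWith L u)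
    (hmem : ∀ x, u x ∈ Icc (0 : ℝ) 1) : ∃ f, Comp u L f ∧ Sorted f := by
  set A := fun f : (Fin (n + 1) → ℝ) → ℝ => ∫ x in box (n + 1), f x * pull x with hA
  have hu0 : Comp u L u := ⟨hp, hu, hmem, rfl, rfl, fun P _ => le_rfl, fun _ => le_rfl⟩
  have hbdd : BddAbove (A '' {f | Comp u L f}) := by
    refine ⟨∫ x in box (n + 1), |pull x|, ?_⟩
    rintro _ ⟨f, hf, rfl⟩
    refine setIntegral_box_mono (hf.lip.continuous.mul continuous_pull) continuous_pull.abs
      fun x _ => ?_
    have h := mul_le_mul_of_nonneg_right (hf.mem x).2 (abs_nonneg (pull x))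
    rw [one_mul] at h
    exact ((mul_le_mul_of_nonneg_left (le_abs_self _) (hf.mem x).1)).trans h
  obtain ⟨s, -, hs, hsmem⟩ := exists_seq_tendsto_sSup
    (Set.Nonempty.image A ⟨u, show u ∈ {f | Comp u L f} from hu0⟩) hbdd
  choose f hf hfs using hsmem
  obtain ⟨g, hg, σ, hσ, hlim⟩ := exists_limit (u := u) hf
  have hAg : A g = sSup (A '' {f | Comp u L f}) := by
    have h := tendsto_box (φ := fun t => t) (w := pull) continuous_pull
      (fun k => (hf (σ k)).lip.continuous) (fun k => (hf (σ k)).mem) hlim continuous_id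
    refine tendsto_nhds_unique h ((hs.comp hσ.tendsto_atTop).congr fun k => (hfs (σ k)).symm)
  refine ⟨g, hg, ?_⟩
  have hgc := hg.lip.continuous
  have hopen : ∀ (i : Fin (n + 1)) (a : ℝ), a ∈ Ioo (-(1 / 2) : ℝ) 0 → ∀ x,
      0 < Real.sin (2 * Real.pi * (x i - a)) → g (refl i a x) ≤ g x := by
    intro i a ha x hx
    set q := Symm.polar i a g with hq
    have hqC : Comp u L q := hg.polar i a
    have hqc : Continuous q := hqC.lip.continuous
    have hle : A q ≤ A g := by rw [hAg]; exact le_csSup hbdd ⟨q, hqC, rfl⟩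
    have hsa : Real.sin (2 * Real.pi * a) < 0 :=
      Real.sin_neg_of_neg_of_neg_pi_lt (by nlinarith [Real.pi_pos, ha.2])
        (by nlinarith [Real.pi_pos, ha.1])
    have hanti : ∀ z, q (refl i a z) - g (refl i a z) = -(q z - g z) := fun z => by
      rcases polar_pair hg.per i a z with ⟨e1, e2⟩ | ⟨e1, e2⟩ <;>
        simp only [hq] <;> rw [e1, e2] <;> ring
    set F := fun z => (q z - g z) * (pull z - pull (refl i a z)) with hF
    have hFc : Continuous F :=
      (hqc.sub hgc).mul (continuous_pull.sub (continuous_pull.comp (continuous_refl i a)))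
    have hFp : Per F := fun z j => by
      simp only [hF, hqC.per z j, hg.per z j, per_pull z j, per_comp_refl per_pull i a z j]
    have hF0 : ∀ z, 0 ≤ F z := fun z => by
      simp only [hF, pull_sub_refl, hq, Symm.polar]
      by_cases hz : InHalf i a z
      · rw [if_pos hz]
        exact mul_nonneg (sub_nonneg.2 (le_max_left _ _))
          (mul_nonneg (by linarith) ((sin_side _).1 hz))
      · rw [if_neg hz]
        exact mul_nonneg_of_nonpos_of_nonpos (sub_nonpos.2 (min_le_left _ _))
          (mul_nonpos_of_nonneg_of_nonpos (by linarith) ((sin_side _).2 (not_le.1 hz)).le)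
    set D := fun z => (q z - g z) * pull z with hD
    have hDc : Continuous D := (hqc.sub hgc).mul continuous_pull
    have hDp : Per D := fun z j => by simp only [hD, hqC.per z j, hg.per z j, per_pull z j]
    have hint : ∫ z in box (n + 1), F z ≤ 0 := by
      have e : F = fun z => D z + D (refl i a z) := by
        funext z; simp only [hF, hD, hanti]; ring
      have e2 : ∫ z in box (n + 1), D z = A q - A g := by
        simp only [hD, hA, sub_mul]
        exact integral_sub (integrableOn_box (hqc.mul continuous_pull))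
          (integrableOn_box (hgc.mul continuous_pull))
      rw [e, integral_add (f := D) (g := fun z => D (refl i a z)) (integrableOn_box hDc)
        (integrableOn_box (hDc.comp (continuous_refl i a))), integral_box_refl hDc hDp i a, e2]
      linarith
    have h0 := zero_of_integral_zero hFc hFp hF0 hint x
    simp only [hF, pull_sub_refl, mul_eq_zero, sub_eq_zero] at h0
    rcases h0 with h0 | h0
    · rw [hq, Symm.polar, if_pos (show InHalf i a x from fract_mid_of_sin_pos hx)] at h0
      exact (le_max_right _ _).trans_eq h0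
    · rcases h0 with (h0 | h0) | h0
      · norm_num at h0
      · exact absurd h0 hsa.ne
      · exact absurd h0 hx.ne'
  intro i a ha x hx
  have hs0 := (sin_side (x i - a)).1 hx
  rcases hs0.lt_or_eq with hpos | hzero
  · have hcl : IsClosed {b | g (refl i b x) ≤ g x} := by
      refine isClosed_le (hgc.comp ?_) continuous_const
      exact continuous_const.update i ((continuous_const.mul continuous_id).sub continuous_const)
    have hU : IsOpen {b | 0 < Real.sin (2 * Real.pi * (x i - b))} :=
      isOpen_lt continuous_const (by fun_prop)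
    refine hcl.closure_subset_iff.2 (show Ioo (-(1 / 2) : ℝ) 0 ∩
      {b | 0 < Real.sin (2 * Real.pi * (x i - b))} ⊆ _ from fun b hb => hopen i b hb.1 x hb.2) ?_
    refine hU.closure_inter ⟨?_, hpos⟩
    rw [closure_Ioo (by norm_num)]
    exact ha
  · obtain ⟨m, hm⟩ := Real.sin_eq_zero_iff.1 hzero.symm
    refine (refl_eq_of_boundary hg.per i a x m ?_).le
    have := Real.pi_pos
    exact mul_right_cancel₀ this.ne' (by linarith)

end Vale.Agent.P232.Symm
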