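import Vale.Agent.P232.Symm.Maximiser

/-!
# P232: smoothing keeps sortedness and does not increase the averaged differences
-/

noncomputable section

open MeasureTheory Filter Topology Set Function
open scoped NNReal ContDiff Convolution

namespace Vale.Agent.P232.Symm

variable {n : ℕ}

/-- A periodic function over the box is a function supported in the centred box over the space. -/
theorem integral_centre {F ψ : (Fin n → ℝ) → ℝ} (hF : Continuous F) (hp : Per F)
    (heq : ∀ w, (∀ k, |w k| ≤ 1 / 2) → F w = ψ w)
    (hout : ∀ w, (∃ k, 1 / 2 ≤ |w k|) → ψ w = 0) : ∫ w in box n, F w = ∫ w, ψ w := by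
  set c : Fin n → ℝ := fun _ => -(1 / 2) with hc
  rw [← integral_box_add hF hp c, ← integral_add_right_eq_self ψ c,
    ← setIntegral_eq_integral_of_forall_compl_eq_zero (s := box n) (f := fun w => ψ (w + c))]
  · refine setIntegral_congr_fun measurableSet_box fun w hw => heq _ fun k => ?_
    have h := hw k
    simp only [hc, Pi.add_apply]
    exact abs_le.2 ⟨by linarith [h.1], by linarith [h.2]⟩
  · intro w hw
    simp only [box, mem_ofPred_eq, not_forall, mem_Ico, not_and_or, not_le, not_lt] at hw
    obtain ⟨k, hk⟩ := hw
    refine hout _ ⟨k, ?_⟩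
    simp only [hc, Pi.add_apply]
    rcases hk with hk | hk
    · rw [abs_of_neg (by linarith)]; linarith
    · rw [abs_of_nonneg (by linarith)]; linarith

/-- The mean change of `f` under a translation. -/
def change (f : (Fin n → ℝ) → ℝ) (w : Fin n → ℝ) : ℝ := ∫ x in box n, |f (x + w) - f x|

theorem continuous_change {f : (Fin n → ℝ) → ℝ} (hf : Continuous f) : Continuous (change f) := by
  refine continuous_boxInt (F := fun w x => |f (x + w) - f x|) ?_
  simp only [uncurry_def]
  fun_prop

theorem per_change {f : (Fin n → ℝ) → ℝ} (hp : Per f) : Per (change f) := fun w j =>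
  setIntegral_congr_fun measurableSet_box fun x _ => by rw [← add_assoc, hp]

theorem diffEnergy_eq {P : (Fin n → ℝ) → ℝ} (hP : Profile P) {f : (Fin n → ℝ) → ℝ}
    (hf : Continuous f) (hp : Per f) :
    diffEnergy P f = ∫ w in box n, ker P w * change f w := by
  have hk := continuous_ker hP
  have h1 : ∀ x, ∫ y in box n, ker P (x - y) * |f x - f y| =
      ∫ w in box n, ker P w * |f (x + w) - f x| := by
    intro x
    rw [← integral_box_add (f := fun y => ker P (x - y) * |f x - f y|) (by fun_prop)
      (fun y j => by
        simp only [hp y j]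
        rw [← per_ker (P := P) (x - (y + Pi.single j 1)) j]
        congr 2; abel) x]
    refine setIntegral_congr_fun measurableSet_box fun w _ => ?_
    rw [show x - (w + x) = -w by abel, ker_neg, abs_sub_comm, add_comm w x]
  unfold diffEnergy
  simp_rw [h1]
  rw [integral_box_swap (F := fun x w => ker P w * |f (x + w) - f x|)
    (by simp only [uncurry_def]; fun_prop)]
  exact setIntegral_congr_fun measurableSet_box fun w _ => integral_const_mul _ _

/-- A smooth even bump of width `δ`. -/
def bump (δ t : ℝ) : ℝ := Real.smoothTransition (1 - (t / δ) ^ 2)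

theorem bump_zero {δ t : ℝ} (hδ : 0 < δ) (ht : δ ≤ |t|) : bump δ t = 0 := by
  refine Real.smoothTransition.zero_of_nonpos ?_
  have : 1 ≤ |t / δ| := by rwa [abs_div, abs_of_pos hδ, one_le_div hδ]
  nlinarith [sq_abs (t / δ)]

/-- The product of the bumps over the coordinates. -/
def bumps (δ : ℝ) (z : Fin n → ℝ) : ℝ := ∏ k, bump δ (z k)

theorem bump_abs (δ t : ℝ) : bump δ |t| = bump δ t := by simp [bump, div_pow, sq_abs]

theorem bumps_zero {δ : ℝ} (hδ : 0 < δ) {z : Fin n → ℝ} (h : ∃ k, δ ≤ |z k|) : bumps δ z = 0 := by
  obtain ⟨k, hk⟩ := h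
  exact Finset.prod_eq_zero (Finset.mem_univ k) (bump_zero hδ hk)

theorem bumps_nonneg (δ : ℝ) (z : Fin n → ℝ) : 0 ≤ bumps δ z :=
  Finset.prod_nonneg fun _ _ => Real.smoothTransition.nonneg _

theorem contDiff_bumps (δ : ℝ) : ContDiff ℝ ∞ (bumps δ : (Fin n → ℝ) → ℝ) :=
  contDiff_prod fun k _ => (Real.smoothTransition.contDiff).comp
    (contDiff_const.sub (((contDiff_apply ℝ ℝ k).div_const δ).pow 2))

theorem hasCompactSupport_bumps {δ : ℝ} (hδ : 0 < δ) :
    HasCompactSupport (bumps δ : (Fin n → ℝ) → ℝ) :=
  HasCompactSupport.intro (isCompact_Icc (a := fun _ => -δ) (b := fun _ => δ)) fun z hz =>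
    bumps_zero hδ <| by
      by_contra h
      push Not at h
      exact hz ⟨fun k => (abs_lt.1 (h k)).1.le, fun k => (abs_lt.1 (h k)).2.le⟩

theorem profile_bumps {δ : ℝ} (hδ : 0 < δ) {c : ℝ} (hc : 0 ≤ c) :
    Profile fun p : Fin n → ℝ => bumps δ p / c where
  cont := (contDiff_bumps δ).continuous.div_const c
  anti := fun p q hp hpq => by
    refine div_le_div_of_nonneg_right (Finset.prod_le_prod
      (fun k _ => Real.smoothTransition.nonneg _) fun k _ => ?_) hc
    refine Real.smoothTransition.monotone (sub_le_sub_left (pow_le_pow_left₀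
      (div_nonneg (hp k) hδ.le) (div_le_div_of_nonneg_right (hpq k) hδ.le) 2) 1)

theorem sorted_average {Q : (Fin (n + 1) → ℝ) → ℝ} (hQ : Profile Q)
    {f : (Fin (n + 1) → ℝ) → ℝ} (hf : Continuous f) (hp : Per f) (hs : Sorted f) :
    Sorted fun x => ∫ y in box (n + 1), ker Q (x - y) * f y := by
  intro i a ha x hx
  simp only
  have hk := continuous_ker hQ
  have hr := continuous_refl i a
  set F := fun y => (ker Q (x - y) - ker Q (x - refl i a y)) * f y with hF
  have hFc : Continuous F := by simp only [hF]; fun_prop
  have hFp : Per F := fun y j => by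
    have h1 : ∀ z, Per fun y => ker Q (z - y) := fun z y j => by
      simp only
      rw [← per_ker (P := Q) (z - (y + Pi.single j 1)) j]
      congr 1; abel
    simp only [hF, hp y j, h1 x y j, per_comp_refl (h1 x) i a y j]
  have hd : ∫ y in box (n + 1), F y =
      (∫ y in box (n + 1), ker Q (x - y) * f y) -
        ∫ y in box (n + 1), ker Q (refl i a x - y) * f y := by
    simp only [hF, sub_mul, ker_refl_left]
    exact integral_sub (integrableOn_box (by fun_prop)) (integrableOn_box (by fun_prop))
  have h2 : 0 ≤ ∫ y in box (n + 1), (F y + F (refl i a y)) := by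
    refine setIntegral_nonneg measurableSet_box fun y _ => ?_
    simp only [hF, refl_refl]
    obtain ⟨h1, h2⟩ := ker_order hQ i a x y
    have hsplit : (ker Q (x - y) - ker Q (x - refl i a y)) * f y +
        (ker Q (x - refl i a y) - ker Q (x - y)) * f (refl i a y) =
        (ker Q (x - y) - ker Q (x - refl i a y)) * (f y - f (refl i a y)) := by ring
    rw [hsplit]
    by_cases hy : InHalf i a y
    · exact mul_nonneg (sub_nonneg.2 (h1 (iff_of_true hx hy))) (sub_nonneg.2 (hs i a ha y hy))
    · refine mul_nonneg_of_nonpos_of_nonpos (sub_nonpos.2 (h2 fun h => hy (h.1 hx))) ?_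
      rcases inHalf_refl i a y with ⟨m, hm⟩ | h
      · rw [refl_eq_of_boundary hp i a y m hm, sub_self]
      · have := hs i a ha _ (h.2 hy)
        rw [refl_refl] at this
        linarith
  rw [integral_add (f := F) (g := fun y => F (refl i a y)) (integrableOn_box hFc)
    (integrableOn_box (hFc.comp hr)), integral_box_refl hFc hFp i a] at h2
  linarith

theorem change_average_le {K f : (Fin n → ℝ) → ℝ} (hK : Continuous K) (hK0 : ∀ z, 0 ≤ K z)
    (hK1 : ∫ z in box n, K z = 1) (hf : Continuous f) (hp : Per f) (w : Fin n → ℝ) :
    change (fun x => ∫ z in box n, K z * f (x + z)) w ≤ change f w := by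
  have hF : Continuous (uncurry fun x z => K z * |f (x + w + z) - f (x + z)|) := by
    simp only [uncurry_def]; fun_prop
  calc change (fun x => ∫ z in box n, K z * f (x + z)) w
      ≤ ∫ x in box n, ∫ z in box n, K z * |f (x + w + z) - f (x + z)| := by
        have hG : Continuous fun x => ∫ z in box n, K z * f (x + z) :=
          continuous_boxInt (F := fun x z => K z * f (x + z))
            (by simp only [uncurry_def]; fun_prop)
        refine setIntegral_box_mono (((hG.comp (by fun_prop)).sub hG).abs) (continuous_boxInt hF)
          fun x _ => ?_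
        rw [← integral_sub (integrableOn_box (f := fun z => K z * f (x + w + z)) (by fun_prop))
          (integrableOn_box (f := fun z => K z * f (x + z)) (by fun_prop))]
        refine ((Real.norm_eq_abs _).ge.trans (norm_integral_le_integral_norm _)).trans_eq ?_
        refine setIntegral_congr_fun measurableSet_box fun z _ => ?_
        simp only [Real.norm_eq_abs, ← mul_sub, abs_mul, abs_of_nonneg (hK0 z)]
    _ = ∫ z in box n, K z * change f w := by
        rw [integral_box_swap hF]
        refine setIntegral_congr_fun measurableSet_box fun z _ => ?_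
        simp only [integral_const_mul]
        congr 1
        rw [change, ← integral_box_add (f := fun x => |f (x + w) - f x|) (by fun_prop)
          (fun x j => by simp only [add_right_comm x (Pi.single j 1) w, hp _ j]) z]
        refine setIntegral_congr_fun measurableSet_box fun x _ => ?_
        simp only [add_right_comm x w z]
    _ = change f w := by rw [integral_mul_const, hK1, one_mul]

/-- A smooth sorted function near a sorted one. -/
theorem exists_smooth {f : (Fin (n + 1) → ℝ) → ℝ} {L : ℝ≥0} (hp : Per f) (hf : LipschitzWith L f)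
    (hmem : ∀ x, f x ∈ Icc (0 : ℝ) 1) (hs : Sorted f) {δ : ℝ} (hδ : 0 < δ) (hδ1 : δ ≤ 1 / 2) :
    ∃ g, Adm g ∧ Sorted g ∧ mean g = mean f ∧ dfct g ≤ dfct f + L * δ ∧
      (∀ w, change g w ≤ change f w) ∧ ∀ x, |g x - f x| ≤ L * δ := by
  have hsm := contDiff_bumps (n := n + 1) δ
  have hsupp := hasCompactSupport_bumps (n := n + 1) hδ
  set c := ∫ z, bumps δ z with hc
  have hcpos : 0 < c :=
    hsm.continuous.integral_pos_of_hasCompactSupport_nonneg_nonzero hsupp (bumps_nonneg δ)
      (x := 0) (by simp [bumps, bump, Real.smoothTransition.one])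
  have hQ := profile_bumps (n := n + 1) hδ hcpos.le
  set K := ker fun p : Fin (n + 1) → ℝ => bumps δ p / c with hKdef
  have hKc : Continuous K := continuous_ker hQ
  have hKp : Per K := per_ker
  have hK0 : ∀ z, 0 ≤ K z := fun z => div_nonneg (bumps_nonneg δ _) hcpos.le
  have hKφ : ∀ z : Fin (n + 1) → ℝ, (∀ k, |z k| ≤ 1 / 2) → K z = bumps δ z / c := fun z hz => by
    simp only [hKdef, ker, bumps, fun k => circ_eq_abs (hz k), bump_abs]
  have hout : ∀ z : Fin (n + 1) → ℝ, (∃ k, 1 / 2 ≤ |z k|) → bumps δ z / c = 0 := fun z ⟨k, hk⟩ => by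
    rw [bumps_zero hδ ⟨k, hδ1.trans hk⟩, zero_div]
  have hK1 : ∫ z in box (n + 1), K z = 1 := by
    rw [integral_centre hKc hKp hKφ hout, integral_div, div_self hcpos.ne']
  set g := fun x => ∫ z in box (n + 1), K z * f (x + z) with hg
  have hfc := hf.continuous
  have hconv : ∀ x, g x = ((fun z => bumps δ z / c) ⋆[ContinuousLinearMap.lsmul ℝ ℝ, volume] f) x := by
    intro x
    rw [convolution_def, hg]
    simp only [ContinuousLinearMap.lsmul_apply, smul_eq_mul]
    rw [integral_centre (F := fun z => K z * f (x + z)) (ψ := fun z => bumps δ z / c * f (x + z))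
      (hKc.mul (hfc.comp (continuous_const.add continuous_id)))
      (fun z j => by simp only [hKp z j, ← add_assoc, hp _ j])
      (fun z hz => by simp only [hKφ z hz])
      (fun z hz => by rw [hout z hz, zero_mul]),
      ← integral_neg_eq_self (fun z => bumps δ z / c * f (x + z)) volume]
    refine integral_congr_ae (Eventually.of_forall fun z => ?_)
    simp [bumps, bump, sub_eq_add_neg, neg_div]
  have hgsm : ContDiff ℝ 1 g := by
    rw [funext hconv]
    refine HasCompactSupport.contDiff_convolution_left _ ?_ ?_ hfc.locallyIntegrable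
    · have h := hsupp.mul_right (f' := fun _ => c⁻¹)
      rw [show (fun z : Fin (n + 1) → ℝ => bumps δ z / c) = bumps δ * fun _ => c⁻¹ from
        funext fun z => div_eq_mul_inv _ _]
      exact h
    · exact (hsm.div_const c).of_le (by exact_mod_cast le_top)
  have hgmem : ∀ x, g x ∈ Icc (0 : ℝ) 1 := fun x =>
    ⟨setIntegral_nonneg measurableSet_box fun z _ => mul_nonneg (hK0 z) (hmem _).1,
      (setIntegral_box_mono (hKc.mul (hfc.comp (continuous_const.add continuous_id))) hKc
        fun z _ => mul_le_of_le_one_right (hK0 z) (hmem _).2).trans_eq hK1⟩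
  have hgper : Per g := fun x j => setIntegral_congr_fun measurableSet_box fun z _ => by
    rw [add_right_comm, hp]
  have hnear : ∀ x, |g x - f x| ≤ L * δ := by
    intro x
    have hI : IntegrableOn (fun z => K z * f (x + z)) (box (n + 1)) :=
      integrableOn_box (by fun_prop)
    have e : g x - f x = ∫ z in box (n + 1), K z * (f (x + z) - f x) := by
      simp only [mul_sub]
      rw [integral_sub hI ((integrableOn_box hKc).mul_const _), integral_mul_const, hK1, one_mul]
    rw [e, ← Real.norm_eq_abs]
    refine (norm_integral_le_integral_norm _).trans ?_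
    simp only [Real.norm_eq_abs]
    rw [integral_centre (ψ := fun z => |bumps δ z / c * (f (x + z) - f x)|) (by fun_prop)
      (fun z j => by simp only [hKp z j, ← add_assoc, hp _ j]) (fun z hz => by simp only [hKφ z hz])
      (fun z hz => by rw [hout z hz, zero_mul, abs_zero])]
    refine (integral_mono_of_nonneg (Eventually.of_forall fun z => abs_nonneg _)
      ((hsm.continuous.integrable_of_hasCompactSupport hsupp).div_const c |>.const_mul (L * δ))
      (Eventually.of_forall fun z => ?_)).trans_eq ?_
    · simp only [abs_mul, abs_of_nonneg (div_nonneg (bumps_nonneg δ z) hcpos.le), mul_comm (L * δ)]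
      by_cases hz : ∀ k, |z k| < δ
      · refine mul_le_mul_of_nonneg_left ?_ (div_nonneg (bumps_nonneg δ z) hcpos.le)
        refine (Real.dist_eq _ _ ▸ hf.dist_le_mul (x + z) x).trans
          (mul_le_mul_of_nonneg_left ?_ L.coe_nonneg)
        rw [dist_eq_norm, add_sub_cancel_left]
        exact (pi_norm_le_iff_of_nonneg hδ.le).2 fun k => (hz k).le
      · push Not at hz
        simp [bumps_zero hδ hz]
    · rw [integral_const_mul, integral_div, div_self hcpos.ne', mul_one]
  refine ⟨g, ⟨hgsm, hgper, hgmem⟩, ?_, ?_, ?_, fun w => change_average_le hKc hK0 hK1 hfc hp w, hnear⟩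
  · have e : g = fun x => ∫ y in box (n + 1), ker (fun p => bumps δ p / c) (x - y) * f y := by
      funext x
      rw [← integral_box_add
        (f := fun y => ker (fun p => bumps δ p / c) (x - y) * f y)
        ((hKc.comp (continuous_const.sub continuous_id)).mul hfc)
        (fun y j => by
          simp only [hp y j]
          rw [← per_ker (P := fun p => bumps δ p / c) (x - (y + Pi.single j 1)) j]
          congr 2; abel) x]
      refine setIntegral_congr_fun measurableSet_box fun z _ => ?_
      rw [show x - (z + x) = -z by abel, ker_neg, add_comm z x]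
    rw [e]
    exact sorted_average hQ hfc hp hs
  · rw [mean, hg, integral_box_swap (F := fun x z => K z * f (x + z))
      (by simp only [uncurry_def]; fun_prop)]
    simp only [integral_const_mul, integral_box_add hfc hp]
    rw [integral_mul_const, hK1, one_mul]
    rfl
  · have hd : Continuous fun x => f x * (1 - f x) := hfc.mul (continuous_const.sub hfc)
    have hgc : Continuous g := hgsm.continuous
    refine (setIntegral_box_mono (g := fun x => f x * (1 - f x) + L * δ)
      (hgc.mul (continuous_const.sub hgc)) (hd.add continuous_const) fun x _ => ?_).trans_eq ?_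
    · have h1 := hnear x
      have h2 : |1 - g x - f x| ≤ 1 := abs_le.2
        ⟨by linarith [(hgmem x).2, (hmem x).2], by linarith [(hgmem x).1, (hmem x).1]⟩
      have h3 : |(g x - f x) * (1 - g x - f x)| ≤ L * δ := by
        rw [abs_mul]
        exact (mul_le_of_le_one_right (abs_nonneg _) h2).trans h1
      show g x * (1 - g x) ≤ f x * (1 - f x) + L * δ
      nlinarith [le_abs_self ((g x - f x) * (1 - g x - f x))]
    · rw [integral_add (integrableOn_box hd) (integrableOn_box continuous_const),
        setIntegral_const, volume_box, one_smul]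
      rfl

end Vale.Agent.P232.Symm
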