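import Vale.Agent.P232.Symm.Kernel

/-!
# P232: polarisation of periodic functions
-/

noncomputable section

open MeasureTheory Filter Topology Set Function
open scoped NNReal

namespace Vale.Agent.P232.Symm

variable {n : ℕ}

open Classical in
/-- The polarisation: the larger of the two values goes to the chosen half period. -/
def polar (i : Fin n) (a : ℝ) (f : (Fin n → ℝ) → ℝ) (x : Fin n → ℝ) : ℝ :=
  if InHalf i a x then max (f x) (f (refl i a x)) else min (f x) (f (refl i a x))

theorem lipschitz_refl (i : Fin n) (a : ℝ) : LipschitzWith 1 (refl i a) := by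
  refine LipschitzWith.of_dist_le_mul fun x y => ?_
  rw [NNReal.coe_one, one_mul, dist_pi_le_iff dist_nonneg]
  intro k
  rcases eq_or_ne k i with rfl | hk
  · rw [refl_apply_self, refl_apply_self, dist_sub_left]
    exact dist_le_pi_dist x y k
  · rw [refl_apply_of_ne hk, refl_apply_of_ne hk]
    exact dist_le_pi_dist x y k

theorem refl_eq_of_boundary {f : (Fin n → ℝ) → ℝ} (hp : Per f) (i : Fin n) (a : ℝ)
    (x : Fin n → ℝ) (m : ℤ) (h : 2 * (x i - a) = m) : f (refl i a x) = f x := by
  have : refl i a x = x + Pi.single i (-(m : ℝ)) := by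
    funext k
    rcases eq_or_ne k i with rfl | hk
    · simp [refl_apply_self]; linarith
    · simp [refl_apply_of_ne hk, hk]
  rw [this]
  simpa using ((hp.add_int i x).int_mul (-m) 0)

theorem exists_boundary {i : Fin n} {a : ℝ} {x y : Fin n → ℝ} (hx : InHalf i a x)
    (hy : ¬InHalf i a y) :
    ∃ m : ℤ, ∃ θ ∈ Icc (0 : ℝ) 1, 2 * ((x + θ • (y - x)) i - a) = m := by
  set s := x i - a with hs
  set t := y i - a with ht
  rw [InHalf] at hx hy
  rw [not_le] at hy
  have hs1 := Int.floor_le s
  have hs2 := Int.lt_floor_add_one s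
  have ht1 := Int.floor_le t
  have ht2 := Int.lt_floor_add_one t
  rw [Int.fract] at hx hy
  have key : ∀ w : ℝ, (w ∈ Icc s t ∨ w ∈ Icc t s) → ∃ θ ∈ Icc (0 : ℝ) 1, s + θ * (t - s) = w := by
    intro w hw
    have hne : t - s ≠ 0 := fun h0 => by
      have hts := sub_eq_zero.1 h0
      rw [← hs] at hx
      rw [← ht, hts] at hy
      linarith
    refine ⟨(w - s) / (t - s), ?_, by field_simp; ring⟩
    rcases hw with ⟨h1, h2⟩ | ⟨h1, h2⟩
    · have : 0 < t - s := lt_of_le_of_ne (by linarith) (Ne.symm hne)
      exact ⟨div_nonneg (by linarith) this.le, (div_le_one this).2 (by linarith)⟩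
    · have : t - s < 0 := lt_of_le_of_ne (by linarith) hne
      exact ⟨div_nonneg_of_nonpos (by linarith) this.le, (div_le_one_of_neg this).2 (by linarith)⟩
  have fin : ∀ m : ℤ, ((m : ℝ) / 2 ∈ Icc s t ∨ (m : ℝ) / 2 ∈ Icc t s) →
      ∃ m : ℤ, ∃ θ ∈ Icc (0 : ℝ) 1, 2 * ((x + θ • (y - x)) i - a) = m := by
    intro m hm
    obtain ⟨θ, hθ, hθe⟩ := key _ hm
    refine ⟨m, θ, hθ, ?_⟩
    simp only [Pi.add_apply, Pi.smul_apply, Pi.sub_apply, smul_eq_mul]
    rw [hs, ht] at hθe
    linarith
  rcases lt_or_ge ⌊t⌋ ⌊s⌋ with h | h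
  · have h' : (⌊t⌋ : ℝ) + 1 ≤ ⌊s⌋ := by exact_mod_cast h
    exact fin (2 * ⌊t⌋ + 2) (Or.inr ⟨by push_cast; linarith, by push_cast; linarith⟩)
  · have h' : (⌊s⌋ : ℝ) ≤ ⌊t⌋ := by exact_mod_cast h
    exact fin (2 * ⌊t⌋ + 1) (Or.inl ⟨by push_cast; linarith, by push_cast; linarith⟩)

theorem lipschitz_polar {f : (Fin n → ℝ) → ℝ} (hp : Per f) {L : ℝ≥0} (hf : LipschitzWith L f)
    (i : Fin n) (a : ℝ) : LipschitzWith L (polar i a f) := by
  have hfr : LipschitzWith L fun x => f (refl i a x) := by
    have h := hf.comp (lipschitz_refl i a)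
    rwa [mul_one] at h
  have hM : LipschitzWith L fun x => max (f x) (f (refl i a x)) := by simpa using hf.max hfr
  have hm : LipschitzWith L fun x => min (f x) (f (refl i a x)) := by simpa using hf.min hfr
  refine LipschitzWith.of_dist_le_mul fun x y => ?_
  have cross : ∀ x y, InHalf i a x → ¬InHalf i a y →
      dist (max (f x) (f (refl i a x))) (min (f y) (f (refl i a y))) ≤ L * dist x y := by
    intro x y hx hy
    obtain ⟨m, θ, hθ, hb⟩ := exists_boundary hx hy
    set w := x + θ • (y - x) with hw
    have he := refl_eq_of_boundary hp i a w m hb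
    refine (dist_triangle _ (f w) _).trans ?_
    have h1 := hM.dist_le_mul x w
    have h2 := hm.dist_le_mul w y
    simp only [he, max_self, min_self] at h1 h2
    have hd : dist x w + dist w y = dist x y := by
      rw [dist_eq_norm, dist_eq_norm, dist_eq_norm, hw,
        show x - (x + θ • (y - x)) = θ • (x - y) by module,
        show x + θ • (y - x) - y = (1 - θ) • (x - y) by module,
        norm_smul, norm_smul, Real.norm_eq_abs, Real.norm_eq_abs, abs_of_nonneg hθ.1,
        abs_of_nonneg (by linarith [hθ.2] : 0 ≤ 1 - θ)]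
      ring
    rw [← hd, mul_add]
    exact add_le_add h1 h2
  unfold polar
  by_cases hx : InHalf i a x <;> by_cases hy : InHalf i a y <;> simp only [hx, hy, if_true, if_false]
  · exact hM.dist_le_mul x y
  · exact cross x y hx hy
  · rw [dist_comm, dist_comm x]; exact cross y x hy hx
  · exact hm.dist_le_mul x y

theorem inHalf_add_single (i : Fin n) (a : ℝ) (x : Fin n → ℝ) (j : Fin n) :
    InHalf i a (x + Pi.single j 1) ↔ InHalf i a x := by
  rcases eq_or_ne j i with rfl | h
  · simp [InHalf, add_sub_right_comm]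
  · simp [InHalf, h.symm]

theorem per_polar {f : (Fin n → ℝ) → ℝ} (hp : Per f) (i : Fin n) (a : ℝ) :
    Per (polar i a f) := fun x j => by
  have h2 : f (refl i a (x + Pi.single j 1)) = f (refl i a x) := per_comp_refl hp i a x j
  unfold polar
  rw [hp x j, h2]
  by_cases hx : InHalf i a x <;> simp [inHalf_add_single, hx]

theorem inHalf_refl (i : Fin n) (a : ℝ) (x : Fin n → ℝ) :
    (∃ m : ℤ, 2 * (x i - a) = m) ∨ (InHalf i a (refl i a x) ↔ ¬InHalf i a x) := by
  by_cases h0 : Int.fract (x i - a) = 0
  · refine Or.inl ⟨2 * ⌊x i - a⌋, ?_⟩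
    have := Int.fract_add_floor (x i - a)
    push_cast; linarith
  by_cases h1 : Int.fract (x i - a) = 1 / 2
  · refine Or.inl ⟨2 * ⌊x i - a⌋ + 1, ?_⟩
    have := Int.fract_add_floor (x i - a)
    push_cast; linarith
  · refine Or.inr ?_
    rw [InHalf, InHalf, refl_apply_self, show 2 * a - x i - a = -(x i - a) by ring,
      Int.fract_neg h0]
    constructor
    · intro h h2; exact h1 (le_antisymm h2 (by linarith))
    · intro h; rw [not_le] at h; linarith

theorem polar_pair {f : (Fin n → ℝ) → ℝ} (hp : Per f) (i : Fin n) (a : ℝ) (x : Fin n → ℝ) :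
    (polar i a f x = f x ∧ polar i a f (refl i a x) = f (refl i a x)) ∨
      (polar i a f x = f (refl i a x) ∧ polar i a f (refl i a x) = f x) := by
  rcases inHalf_refl i a x with ⟨m, hm⟩ | h
  · have e := refl_eq_of_boundary hp i a x m hm
    refine Or.inl ?_
    simp [polar, e]
  · by_cases hx : InHalf i a x <;> rcases le_total (f x) (f (refl i a x)) with hle | hle <;>
      simp [polar, hx, h, hle]

theorem integral_polar_comp {f : (Fin (n + 1) → ℝ) → ℝ} (hp : Per f) {L : ℝ≥0}
    (hf : LipschitzWith L f) (i : Fin (n + 1)) (a : ℝ) {φ : ℝ → ℝ} (hφ : Continuous φ) :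
    ∫ x in box (n + 1), φ (polar i a f x) = ∫ x in box (n + 1), φ (f x) := by
  have hc := hφ.comp (lipschitz_polar hp hf i a).continuous
  have hc0 := hφ.comp hf.continuous
  have hcr := hc.comp (continuous_refl i a)
  have hc0r := hc0.comp (continuous_refl i a)
  have h1 := integral_box_refl hc ((per_polar hp i a).comp_left φ) i a
  have h2 := integral_box_refl hc0 (hp.comp_left φ) i a
  have h3 : ∫ x in box (n + 1), (φ (polar i a f x) + φ (polar i a f (refl i a x))) =
      ∫ x in box (n + 1), (φ (f x) + φ (f (refl i a x))) :=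
    setIntegral_congr_fun measurableSet_box fun x _ => by
      rcases polar_pair hp i a x with ⟨e1, e2⟩ | ⟨e1, e2⟩
      · simp [e1, e2]
      · simp [e1, e2, add_comm]
  rw [integral_add (f := fun x => φ (polar i a f x))
      (g := fun x => φ (polar i a f (refl i a x))) (integrableOn_box hc) (integrableOn_box hcr),
    integral_add (f := fun x => φ (f x))
      (g := fun x => φ (f (refl i a x))) (integrableOn_box hc0) (integrableOn_box hc0r)] at h3
  simp only [Function.comp_apply] at h1 h2
  linarith

theorem integral_box_swap {F : (Fin n → ℝ) → (Fin n → ℝ) → ℝ} (hF : Continuous (uncurry F)) :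
    ∫ x in box n, ∫ y in box n, F x y = ∫ y in box n, ∫ x in box n, F x y := by
  refine integral_integral_swap ?_
  rw [Measure.prod_restrict, ← Measure.volume_eq_prod]
  have hK : IntegrableOn (uncurry F) (Icc (0 : Fin n → ℝ) 1 ×ˢ Icc 0 1) :=
    hF.continuousOn.integrableOn_compact (isCompact_Icc.prod isCompact_Icc)
  refine hK.mono_set ?_
  exact prod_mono (fun x hx => ⟨fun k => (hx k).1, fun k => (hx k).2.le⟩)
    (fun x hx => ⟨fun k => (hx k).1, fun k => (hx k).2.le⟩)

theorem continuous_boxInt {F : (Fin n → ℝ) → (Fin n → ℝ) → ℝ} (hF : Continuous (uncurry F)) :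
    Continuous fun x => ∫ y in box n, F x y := by
  simp_rw [fun x => setIntegral_congr_set (f := F x) (μ := volume) (box_ae (n := n))]
  exact continuous_parametric_integral_of_continuous hF isCompact_Icc

/-- The averaged differences of `f` against a periodic kernel. -/
def diffEnergy (P : (Fin n → ℝ) → ℝ) (f : (Fin n → ℝ) → ℝ) : ℝ :=
  ∫ x in box n, ∫ y in box n, ker P (x - y) * |f x - f y|

/-- The four terms of a pair of points and their reflections. -/
def quad (P : (Fin n → ℝ) → ℝ) (i : Fin n) (a : ℝ) (f : (Fin n → ℝ) → ℝ)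
    (x y : Fin n → ℝ) : ℝ :=
  ker P (x - y) * (|f x - f y| + |f (refl i a x) - f (refl i a y)|) +
    ker P (x - refl i a y) * (|f x - f (refl i a y)| + |f (refl i a x) - f y|)

theorem pair_sorted (k₁ k₂ a b c d : ℝ) :
    (k₂ ≤ k₁ → k₁ * (|max a b - max c d| + |min a b - min c d|) +
        k₂ * (|max a b - min c d| + |min a b - max c d|) ≤
        k₁ * (|a - c| + |b - d|) + k₂ * (|a - d| + |b - c|)) ∧
    (k₁ ≤ k₂ → k₁ * (|max a b - min c d| + |min a b - max c d|) +
        k₂ * (|max a b - max c d| + |min a b - min c d|) ≤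
        k₁ * (|a - c| + |b - d|) + k₂ * (|a - d| + |b - c|)) := by
  have key : |max a b - max c d| + |min a b - min c d| ≤
      |max a b - min c d| + |min a b - max c d| := by
    have h1 : min a b ≤ max a b := min_le_max
    have h2 : min c d ≤ max c d := min_le_max
    generalize max a b = A at *
    generalize min a b = B at *
    generalize max c d = C at *
    generalize min c d = D at *
    rcases abs_cases (A - C) with ⟨e1, _⟩ | ⟨e1, _⟩ <;>
      rcases abs_cases (B - D) with ⟨e2, _⟩ | ⟨e2, _⟩ <;>
      rcases abs_cases (A - D) with ⟨e3, _⟩ | ⟨e3, _⟩ <;>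
      rcases abs_cases (B - C) with ⟨e4, _⟩ | ⟨e4, _⟩ <;>
      rw [e1, e2, e3, e4] <;> linarith
  rcases le_total a b with hab | hab <;> rcases le_total c d with hcd | hcd <;>
    simp only [hab, hcd, max_eq_left, max_eq_right, min_eq_left, min_eq_right] at key ⊢ <;>
    constructor <;> intro hk <;> nlinarith [abs_sub_comm a b]

theorem quad_polar_le {P : (Fin n → ℝ) → ℝ} (hP : Profile P) {f : (Fin n → ℝ) → ℝ} (hp : Per f)
    (i : Fin n) (a : ℝ) (x y : Fin n → ℝ) :
    quad P i a (polar i a f) x y ≤ quad P i a f x y := by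
  have hpair : ∀ z, (InHalf i a z → polar i a f z = max (f z) (f (refl i a z)) ∧
      polar i a f (refl i a z) = min (f z) (f (refl i a z))) ∧
      (¬InHalf i a z → polar i a f z = min (f z) (f (refl i a z)) ∧
      polar i a f (refl i a z) = max (f z) (f (refl i a z))) := by
    intro z
    rcases inHalf_refl i a z with ⟨m, hm⟩ | h
    · have e := refl_eq_of_boundary hp i a z m hm
      constructor <;> intro hz <;> simp [polar, e]
    · constructor <;> intro hz <;> simp [polar, hz, h, max_comm, min_comm]
  obtain ⟨hsame, hopp⟩ := ker_order hP i a x y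
  obtain ⟨s1, s2⟩ := pair_sorted (ker P (x - y)) (ker P (x - refl i a y)) (f x) (f (refl i a x))
    (f y) (f (refl i a y))
  unfold quad
  by_cases hx : InHalf i a x <;> by_cases hy : InHalf i a y
  · rw [((hpair x).1 hx).1, ((hpair x).1 hx).2, ((hpair y).1 hy).1, ((hpair y).1 hy).2]
    exact s1 (hsame (iff_of_true hx hy))
  · rw [((hpair x).1 hx).1, ((hpair x).1 hx).2, ((hpair y).2 hy).1, ((hpair y).2 hy).2]
    exact s2 (hopp fun h => hy (h.1 hx))
  · rw [((hpair x).2 hx).1, ((hpair x).2 hx).2, ((hpair y).1 hy).1, ((hpair y).1 hy).2,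
      add_comm |min (f x) _ - max (f y) _|, add_comm |min (f x) _ - min (f y) _|]
    exact s2 (hopp fun h => hx (h.2 hy))
  · rw [((hpair x).2 hx).1, ((hpair x).2 hx).2, ((hpair y).2 hy).1, ((hpair y).2 hy).2,
      add_comm |min (f x) _ - min (f y) _|, add_comm |min (f x) _ - max (f y) _|]
    exact s1 (hsame (iff_of_false hx hy))

theorem four_diffEnergy {P : (Fin (n + 1) → ℝ) → ℝ} (hP : Profile P)
    {f : (Fin (n + 1) → ℝ) → ℝ} (hf : Continuous f) (hp : Per f) (i : Fin (n + 1)) (a : ℝ) :
    4 * diffEnergy P f = ∫ x in box (n + 1), ∫ y in box (n + 1), quad P i a f x y := by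
  have hk := continuous_ker hP
  have hr := continuous_refl i a
  set F := fun x y => ker P (x - y) * |f x - f y| with hF
  have hFc : Continuous (uncurry F) := by simp only [hF]; fun_prop
  have hFy : ∀ x, Per (F x) := fun x y j => by
    simp only [hF, hp y j]
    rw [← per_ker (P := P) (x - (y + Pi.single j 1)) j]
    congr 2; abel
  have hFx : ∀ y, Per fun x => F x y := fun y x j => by
    simp only [hF, hp x j]
    rw [← per_ker (P := P) (x - y) j]
    congr 2; abel
  set G := fun x => ∫ y in box (n + 1), F x y with hG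
  have hGc : Continuous G := continuous_boxInt hFc
  have hGp : Per G := fun x j => setIntegral_congr_fun measurableSet_box fun y _ => hFx y x j
  have e1 : ∀ x, ∫ y in box (n + 1), F x (refl i a y) = G x := fun x =>
    integral_box_refl (f := F x) (hFc.uncurry_left x) (hFy x) i a
  have e2 : ∫ x in box (n + 1), G (refl i a x) = ∫ x in box (n + 1), G x :=
    integral_box_refl hGc hGp i a
  have hq : ∀ x y, quad P i a f x y =
      (F x y + F x (refl i a y)) + (F (refl i a x) y + F (refl i a x) (refl i a y)) := by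
    intro x y
    simp only [hF, quad, ker_refl_left, refl_refl]
    ring
  have hI : ∀ x, IntegrableOn (fun y => F x y) (box (n + 1)) :=
    fun x => integrableOn_box (hFc.uncurry_left x)
  have hI' : ∀ x, IntegrableOn (fun y => F x (refl i a y)) (box (n + 1)) :=
    fun x => integrableOn_box ((hFc.uncurry_left x).comp hr)
  have hx : ∀ x, ∫ y in box (n + 1), quad P i a f x y = 2 * G x + 2 * G (refl i a x) := by
    intro x
    simp_rw [hq]
    rw [integral_add (f := fun y => F x y + F x (refl i a y))
        (g := fun y => F (refl i a x) y + F (refl i a x) (refl i a y))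
        ((hI x).add (hI' x)) ((hI _).add (hI' _)), integral_add (hI x) (hI' x),
      integral_add (hI _) (hI' _), e1, e1]
    ring
  simp_rw [hx]
  rw [integral_add ((integrableOn_box hGc).const_mul 2)
    ((integrableOn_box (f := fun x => G (refl i a x)) (hGc.comp hr)).const_mul 2),
    integral_const_mul, integral_const_mul, e2]
  show 4 * ∫ x in box (n + 1), G x = _
  ring

theorem diffEnergy_polar_le {P : (Fin (n + 1) → ℝ) → ℝ} (hP : Profile P)
    {f : (Fin (n + 1) → ℝ) → ℝ} (hp : Per f) {L : ℝ≥0} (hf : LipschitzWith L f) (i : Fin (n + 1))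
    (a : ℝ) : diffEnergy P (polar i a f) ≤ diffEnergy P f := by
  have hg := (lipschitz_polar hp hf i a).continuous
  have hk := continuous_ker hP
  have hr := continuous_refl i a
  have hq : ∀ g : (Fin (n + 1) → ℝ) → ℝ, Continuous g → Continuous (uncurry (quad P i a g)) := by
    intro g hg
    unfold quad
    simp only [Function.uncurry_def]
    fun_prop
  have hfc := hf.continuous
  refine le_of_mul_le_mul_left ?_ (show (0 : ℝ) < 4 by norm_num)
  rw [four_diffEnergy hP hg (per_polar hp i a) i a, four_diffEnergy hP hfc hp i a]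
  exact setIntegral_box_mono (continuous_boxInt (hq _ hg)) (continuous_boxInt (hq _ hfc)) fun x _ =>
    setIntegral_box_mono ((hq _ hg).uncurry_left x) ((hq _ hfc).uncurry_left x) fun y _ =>
      quad_polar_le hP hp i a x y

end Vale.Agent.P232.Symm
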