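import Vale.Agent.P232.Symm.Polar

/-!
# P232: polarisation spreads the means over the hyperplanes
-/

noncomputable section

open MeasureTheory Filter Topology Set Function
open scoped NNReal

namespace Vale.Agent.P232.Symm

variable {n : ℕ}

/-- The mean over the hyperplane `x i = z`. -/
def planeMean (f : (Fin n → ℝ) → ℝ) (i : Fin n) (z : ℝ) : ℝ :=
  ∫ y in box n, f (update y i z)

/-- The mean square of the means over the hyperplanes across an axis. -/
def planeSq (f : (Fin n → ℝ) → ℝ) (i : Fin n) : ℝ := ∫ x in box n, planeMean f i (x i) ^ 2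

theorem continuous_planeMean {f : (Fin n → ℝ) → ℝ} (hf : Continuous f) (i : Fin n) :
    Continuous fun x : Fin n → ℝ => planeMean f i (x i) := by
  refine continuous_boxInt (F := fun x y => f (update y i (x i))) ?_
  simp only [uncurry_def]
  exact hf.comp (continuous_snd.update i ((continuous_apply i).comp continuous_fst))

theorem continuous_planeMean' {f : (Fin n → ℝ) → ℝ} (hf : Continuous f) (i : Fin n) :
    Continuous (planeMean f i) := by
  refine ((continuous_planeMean hf i).comp
    (continuous_pi (f := fun (t : ℝ) (_ : Fin n) => t) fun _ => continuous_id)).congr fun t => rfl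

theorem planeMean_add_one {f : (Fin n → ℝ) → ℝ} (hp : Per f) (i : Fin n) (z : ℝ) :
    planeMean f i (z + 1) = planeMean f i z :=
  setIntegral_congr_fun measurableSet_box fun y _ => by
    rw [show update y i (z + 1) = update y i z + Pi.single i 1 by
      funext k; rcases eq_or_ne k i with rfl | hk <;> simp [*], hp]

theorem per_planeMean {f : (Fin n → ℝ) → ℝ} (hp : Per f) (i : Fin n) :
    Per fun x => planeMean f i (x i) := fun x j => by
  rcases eq_or_ne j i with rfl | hj
  · simp [planeMean_add_one hp]
  · simp [hj.symm]

theorem planeMean_same {f : (Fin (n + 1) → ℝ) → ℝ} (hp : Per f) {L : ℝ≥0}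
    (hf : LipschitzWith L f) {i j : Fin (n + 1)} (hij : i ≠ j) (a z : ℝ) :
    planeMean (polar j a f) i z = planeMean f i z := by
  have hu : LipschitzWith 1 fun y : Fin (n + 1) → ℝ => update y i z := by
    refine LipschitzWith.of_dist_le_mul fun x y => ?_
    rw [NNReal.coe_one, one_mul, dist_pi_le_iff dist_nonneg]
    intro k
    rcases eq_or_ne k i with rfl | hk
    · simp
    · simpa [hk] using dist_le_pi_dist x y k
  have hhp : Per fun y => f (update y i z) := fun y k => by
    simp only
    rcases eq_or_ne k i with rfl | hk
    · rw [show update (y + Pi.single k 1) k z = update y k z by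
        funext l; rcases eq_or_ne l k with rfl | hl <;> simp [*]]
    · rw [show update (y + Pi.single k 1) i z = update y i z + Pi.single k 1 by
        funext l; rcases eq_or_ne l i with rfl | hl <;> simp [*, hk.symm], hp]
  have hhl : LipschitzWith L fun y => f (update y i z) := mul_one L ▸ hf.comp hu
  have e : (fun y => polar j a f (update y i z)) = polar j a fun y => f (update y i z) := by
    funext y
    have h1 : InHalf j a (update y i z) ↔ InHalf j a y := by simp [InHalf, hij.symm]
    have h2 : refl j a (update y i z) = update (refl j a y) i z := by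
      simp only [refl, update_of_ne hij.symm, update_comm hij]
    unfold polar
    simp only [h2]
    split_ifs with ha hb hb <;> first | rfl | exact absurd (h1.1 ha) hb | exact absurd (h1.2 hb) ha
  unfold planeMean
  rw [e]
  exact integral_polar_comp (φ := fun t => t) hhp hhl j a continuous_id

/-- Polarisation does not decrease the mean square over the hyperplanes. -/
theorem planeSq_polar_le {f : (Fin (n + 1) → ℝ) → ℝ} (hp : Per f) {L : ℝ≥0}
    (hf : LipschitzWith L f) (i j : Fin (n + 1)) (a : ℝ) :
    planeSq f i ≤ planeSq (polar j a f) i := by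
  rcases eq_or_ne i j with rfl | hij
  swap
  · exact le_of_eq (by simp only [planeSq, planeMean_same hp hf hij a])
  set g := polar i a f with hg
  have hgc : Continuous g := (lipschitz_polar hp hf i a).continuous
  have hgp : Per g := per_polar hp i a
  set A := planeMean f i
  set B := planeMean g i
  have hint : ∀ {φ : (Fin (n + 1) → ℝ) → ℝ}, Continuous φ → ∀ z,
      IntegrableOn (fun y => φ (update y i z)) (box (n + 1)) := fun hφ z =>
    integrableOn_box (hφ.comp (continuous_id.update i continuous_const))
  have hr : ∀ z y, refl i a (update y i z) = update y i (2 * a - z) := fun z y => by simp [refl]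
  have hsum : ∀ z, B z + B (2 * a - z) = A z + A (2 * a - z) := fun z => by
    show (∫ y in _, g _) + ∫ y in _, g _ = (∫ y in _, f _) + ∫ y in _, f _
    rw [← integral_add (hint hgc z) (hint hgc _),
      ← integral_add (hint hf.continuous z) (hint hf.continuous _)]
    refine setIntegral_congr_fun measurableSet_box fun y _ => ?_
    simp only [← hr z y]
    rcases polar_pair hp i a (update y i z) with ⟨e1, e2⟩ | ⟨e1, e2⟩ <;> rw [hg, e1, e2]
    exact add_comm _ _
  have hside : ∀ z, (A z ≤ B z ∧ A (2 * a - z) ≤ B z) ∨ (B z ≤ A z ∧ B z ≤ A (2 * a - z)) := by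
    intro z
    by_cases hz : Int.fract (z - a) ≤ 1 / 2
    · refine Or.inl ⟨setIntegral_mono_on (hint hf.continuous z) (hint hgc z) measurableSet_box
        fun y _ => ?_, setIntegral_mono_on (hint hf.continuous _) (hint hgc z) measurableSet_box
        fun y _ => ?_⟩ <;>
      · simp only [hg, polar, if_pos (show InHalf i a (update y i z) by simpa [InHalf] using hz), hr]
        simp
    · refine Or.inr ⟨setIntegral_mono_on (hint hgc z) (hint hf.continuous z) measurableSet_box
        fun y _ => ?_, setIntegral_mono_on (hint hgc z) (hint hf.continuous _) measurableSet_box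
        fun y _ => ?_⟩ <;>
      · simp only [hg, polar, if_neg (show ¬InHalf i a (update y i z) by simpa [InHalf] using hz),
          hr]
        simp
  have hA := continuous_planeMean hf.continuous i
  have hB := continuous_planeMean hgc i
  have h1 := integral_box_refl (hA.pow 2)
    ((per_planeMean hp i).comp_left fun t => t ^ 2) i a
  have h2 := integral_box_refl (hB.pow 2)
    ((per_planeMean hgp i).comp_left fun t => t ^ 2) i a
  simp only [Pi.pow_apply, refl_apply_self] at h1 h2
  have hA' := hA.comp (continuous_refl i a)
  have hB' := hB.comp (continuous_refl i a)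
  simp only [Function.comp_def, refl_apply_self] at hA' hB'
  have h3 : ∫ x in box (n + 1), (A (x i) ^ 2 + A (2 * a - x i) ^ 2) ≤
      ∫ x in box (n + 1), (B (x i) ^ 2 + B (2 * a - x i) ^ 2) := by
    refine setIntegral_box_mono ((hA.pow 2).add (hA'.pow 2)) ((hB.pow 2).add (hB'.pow 2))
      fun x _ => ?_
    show A (x i) ^ 2 + A (2 * a - x i) ^ 2 ≤ B (x i) ^ 2 + B (2 * a - x i) ^ 2
    rw [show B (2 * a - x i) = A (x i) + A (2 * a - x i) - B (x i) by linarith [hsum (x i)]]
    rcases hside (x i) with ⟨p, q⟩ | ⟨p, q⟩
    · linarith [mul_nonneg (sub_nonneg.2 p) (sub_nonneg.2 q)]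
    · linarith [mul_nonneg (sub_nonneg.2 p) (sub_nonneg.2 q)]
  rw [integral_add (f := fun x => A (x i) ^ 2) (g := fun x => A (2 * a - x i) ^ 2)
      (integrableOn_box (hA.pow 2)) (integrableOn_box (hA'.pow 2)),
    integral_add (f := fun x => B (x i) ^ 2) (g := fun x => B (2 * a - x i) ^ 2)
      (integrableOn_box (hB.pow 2)) (integrableOn_box (hB'.pow 2))] at h3
  unfold planeSq
  linarith

theorem tendsto_planeSq {f : ℕ → (Fin n → ℝ) → ℝ} {g : (Fin n → ℝ) → ℝ} (hf : ∀ k, Continuous (f k))
    (hb : ∀ k x, f k x ∈ Icc (0 : ℝ) 1) (hlim : ∀ x, Tendsto (fun k => f k x) atTop (𝓝 (g x)))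
    (i : Fin n) : Tendsto (fun k => planeSq (f k) i) atTop (𝓝 (planeSq g i)) := by
  have hm : ∀ k z, ‖planeMean (f k) i z‖ ≤ 1 := fun k z => by
    refine (norm_setIntegral_le_of_norm_le_const (C := 1)
      (measure_lt_top (volume.restrict (box n)) univ |> fun h => by simpa using h)
      fun y _ => ?_).trans_eq ?_
    · rw [Real.norm_eq_abs, abs_of_nonneg (hb k _).1]; exact (hb k _).2
    · rw [volume_box, mul_one]
  refine tendsto_integral_of_dominated_convergence (fun _ => 1)
    (fun k => ((continuous_planeMean (hf k) i).pow 2).aestronglyMeasurable)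
    (integrableOn_box continuous_const) (fun k => Eventually.of_forall fun x => ?_)
    (Eventually.of_forall fun x => Tendsto.pow ?_ 2)
  · rw [norm_pow]
    exact pow_le_one₀ (norm_nonneg _) (hm k _)
  · exact tendsto_integral_of_dominated_convergence (fun _ => 1)
      (fun k => ((hf k).comp (continuous_id.update i continuous_const)).aestronglyMeasurable)
      (integrableOn_box continuous_const)
      (fun k => Eventually.of_forall fun y => by
        rw [Real.norm_eq_abs, abs_of_nonneg (hb k _).1]; exact (hb k _).2)
      (Eventually.of_forall fun y => hlim _)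

/-- Functions which are uniformly near have nearly the same mean squares over the hyperplanes. -/
theorem planeSq_near {f g : (Fin n → ℝ) → ℝ} (hf : Continuous f) (hg : Continuous g)
    (hfm : ∀ x, f x ∈ Icc (0 : ℝ) 1) (hgm : ∀ x, g x ∈ Icc (0 : ℝ) 1) {δ : ℝ}
    (h : ∀ x, |f x - g x| ≤ δ) (i : Fin n) : planeSq f i ≤ planeSq g i + 2 * δ := by
  have hint : ∀ {φ : (Fin n → ℝ) → ℝ}, Continuous φ → ∀ z,
      IntegrableOn (fun y => φ (update y i z)) (box n) := fun hφ z =>
    integrableOn_box (hφ.comp (continuous_id.update i continuous_const))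
  have hm : ∀ {φ : (Fin n → ℝ) → ℝ}, Continuous φ → (∀ x, φ x ∈ Icc (0 : ℝ) 1) → ∀ z,
      planeMean φ i z ∈ Icc (0 : ℝ) 1 := fun hφ hm z => by
    refine ⟨setIntegral_nonneg measurableSet_box fun y _ => (hm _).1, ?_⟩
    refine (setIntegral_mono_on (hint hφ z) (integrableOn_box continuous_const) measurableSet_box
      fun y _ => (hm _).2).trans_eq ?_
    rw [setIntegral_const, volume_box, one_smul]
  have hA := continuous_planeMean hf i
  have hB := continuous_planeMean hg i
  refine (setIntegral_box_mono (hA.pow 2) ((hB.pow 2).add continuous_const) fun x _ => ?_).trans_eq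
    (?_ : ∫ x in box n, (planeMean g i (x i) ^ 2 + 2 * δ) = planeSq g i + 2 * δ)
  · show planeMean f i (x i) ^ 2 ≤ planeMean g i (x i) ^ 2 + 2 * δ
    have h1 : planeMean f i (x i) ≤ planeMean g i (x i) + δ := by
      refine (setIntegral_mono_on (hint hf _) ((hint hg _).add (integrableOn_box continuous_const))
        measurableSet_box fun y _ => show f _ ≤ g _ + δ by linarith [(abs_le.1 (h (update y i (x i)))).2]).trans_eq ?_
      show ∫ y in box n, (g (update y i (x i)) + δ) = _
      rw [integral_add (hint hg _) (integrableOn_box continuous_const), setIntegral_const, volume_box,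
        one_smul]
      rfl
    obtain ⟨a0, a1⟩ := hm hf hfm (x i)
    obtain ⟨b0, b1⟩ := hm hg hgm (x i)
    have hδ : 0 ≤ δ := (abs_nonneg _).trans (h x)
    nlinarith
  · rw [integral_add (f := fun x => planeMean g i (x i) ^ 2) (integrableOn_box (hB.pow 2))
      (integrableOn_box continuous_const), setIntegral_const, volume_box, one_smul]
    rfl

end Vale.Agent.P232.Symm
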